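import Vale.Agent.P361.Wave

namespace Vale.Agent.P361

open Real Filter

/-- one dimensional Gaussian Riemann sum -/
noncomputable def gs (N : ℕ) (t : ℝ) : ℝ :=
  (∑ j ∈ Finset.Icc (-(N : ℤ)) N, exp (-(t * (2 * π / (2 * N + 1) * (j : ℝ)) ^ 2))) / (2 * N + 1)

theorem gs_cube (N : ℕ) (t : ℝ) :
    ∑ k : Site N, exp (-(t * qq k)) = (Fintype.card (Site N) : ℝ) * gs N t ^ 3 := by
  have h1 : ∀ k : Site N, exp (-(t * qq k)) =
      ∏ i, exp (-(t * (2 * π / (2 * N + 1) * ((k i : ℤ) : ℝ)) ^ 2)) := by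
    intro k
    rw [← exp_sum, qq, Finset.mul_sum, Finset.sum_neg_distrib]
  simp only [h1]
  have h2 := Finset.prod_univ_sum (fun _ : Fin 3 => (Finset.univ : Finset (Finset.Icc (-(N : ℤ)) N)))
    fun _ j => exp (-(t * (2 * π / (2 * N + 1) * ((j : ℤ) : ℝ)) ^ 2))
  rw [Fintype.piFinset_univ] at h2
  rw [← h2, Finset.prod_const, Finset.card_univ, Fintype.card_fin, card_site, gs,
    Finset.sum_coe_sort _ fun j : ℤ => exp (-(t * (2 * π / (2 * N + 1) * (j : ℝ)) ^ 2))]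
  have : (2 * N + 1 : ℝ) ≠ 0 := by positivity
  field_simp

theorem Gauss.sum_Icc (f : ℤ → ℝ) (hf : ∀ j, f (-j) = f j) (N : ℕ) :
    ∑ j ∈ Finset.Icc (-(N : ℤ)) N, f j = 2 * ∑ j ∈ Finset.range (N + 1), f j - f 0 := by
  induction N with
  | zero => simp; ring
  | succ N ih =>
    have h : Finset.Icc (-((N + 1 : ℕ) : ℤ)) (N + 1 : ℕ) =
        insert (-((N + 1 : ℕ) : ℤ)) (insert ((N + 1 : ℕ) : ℤ) (Finset.Icc (-(N : ℤ)) N)) := by
      ext x
      simp only [Finset.mem_Icc, Finset.mem_insert]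
      omega
    rw [h, Finset.sum_insert, Finset.sum_insert, ih, Finset.sum_range_succ _ (N + 1), hf]
    · ring
    · simp only [Finset.mem_Icc]
      omega
    · simp only [Finset.mem_Icc, Finset.mem_insert]
      omega

theorem gs_lower (η : ℝ) (hη : 0 < η) : ∃ T : ℝ, 0 < T ∧ ∀ t, T ≤ t →
    ∀ᶠ N : ℕ in atTop, (1 - η) / (2 * √(π * t)) ≤ gs N t := by
  have h1 := MeasureTheory.intervalIntegral_tendsto_integral_Ioi (μ := MeasureTheory.volume) 0
    (integrableOn_Ioi_exp_neg_mul_sq_iff.2 one_pos) tendsto_id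
  rw [integral_gaussian_Ioi, div_one] at h1
  have hp : 0 < √π := sqrt_pos.2 pi_pos
  obtain ⟨X, hX⟩ := eventually_atTop.1
    (h1.eventually (le_mem_nhds (show (1 - η / 2) * (√π / 2) < √π / 2 by nlinarith)))
  refine ⟨X ^ 2 + 1, by positivity, fun t ht => ?_⟩
  have ht0 : 0 < t := by nlinarith [sq_nonneg X]
  have hs : 0 < √t := sqrt_pos.2 ht0
  have hXt : X ≤ √t := le_sqrt_of_sq_le (by linarith)
  filter_upwards [tendsto_natCast_atTop_atTop.eventually_ge_atTop (2 * (√π * √t) / η)] with N hN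
  have hL : (0 : ℝ) < 2 * N + 1 := by positivity
  set c : ℝ := 2 * π / (2 * N + 1) * √t with hc
  have hc0 : 0 < c := by positivity
  have h2 : ∀ x : ℝ, exp (-(t * (2 * π / (2 * N + 1) * x) ^ 2)) = exp (-1 * (c * x) ^ 2) := by
    intro x
    congr 1
    rw [hc, mul_right_comm, mul_pow _ √t, sq_sqrt ht0.le]
    ring
  have h3 : AntitoneOn (fun x : ℝ => exp (-1 * (c * x) ^ 2)) (Set.Icc 0 (0 + (N + 1 : ℕ))) := by
    intro x hx y _ hxy
    have := hx.1
    apply exp_le_exp.2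
    have : (c * x) ^ 2 ≤ (c * y) ^ 2 := by gcongr
    linarith
  have h4 := h3.integral_le_sum
  rw [intervalIntegral.integral_comp_mul_left (fun s : ℝ => exp (-1 * s ^ 2)) hc0.ne', mul_zero,
    smul_eq_mul] at h4
  have h5 : X ≤ c * (0 + (N + 1 : ℕ)) := by
    refine hXt.trans ?_
    rw [hc, mul_right_comm]
    refine le_mul_of_one_le_left hs.le ?_
    rw [div_mul_eq_mul_div, one_le_div hL]
    push_cast
    nlinarith [pi_gt_three, (Nat.cast_nonneg N : (0 : ℝ) ≤ N)]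
  have h6 := mul_le_mul_of_nonneg_left (hX _ h5) (inv_pos.2 hc0).le
  have h7 := h6.trans h4
  simp only [zero_add] at h7
  rw [gs]
  simp only [h2]
  rw [Gauss.sum_Icc (fun j : ℤ => exp (-1 * (c * j) ^ 2)) (fun j => by simp) N, le_div_iff₀ hL,
    sqrt_mul pi_pos.le]
  simp only [Int.cast_natCast, Int.cast_zero, mul_zero, ne_eq, OfNat.ofNat_ne_zero,
    not_false_eq_true, zero_pow, exp_zero]
  have h8 : 2 * (c⁻¹ * ((1 - η / 2) * (√π / 2))) = (1 - η / 2) / (2 * (√π * √t)) * (2 * N + 1) := by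
    rw [hc]
    have : π = √π * √π := (mul_self_sqrt pi_pos.le).symm
    set r := √π
    rw [this]
    field_simp
  have h9 : 1 ≤ η / 2 / (2 * (√π * √t)) * (2 * N + 1) := by
    rw [div_mul_eq_mul_div, one_le_div (by positivity)]
    rw [div_le_iff₀ hη] at hN
    nlinarith
  have h10 : (1 - η) / (2 * (√π * √t)) * (2 * N + 1) =
      (1 - η / 2) / (2 * (√π * √t)) * (2 * N + 1) - η / 2 / (2 * (√π * √t)) * (2 * N + 1) := by
    ring
  linarith

end Vale.Agent.P361
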