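import Vale.Agent.P361.Gibbs

open Matrix

namespace Vale.Agent.P361

variable {n : Type} [Fintype n] [DecidableEq n]

theorem peierls_eq (β : ℝ) (K : Matrix n n ℂ) (μ : n → ℝ)
    (hc : K * diagonal (fun i => (μ i : ℂ)) = diagonal (fun i => (μ i : ℂ)) * K) :
    gb β (K + diagonal fun i => (μ i : ℂ)) 1 =
      gb β K (diagonal fun i => ((Real.exp (-(β * μ i)) : ℝ) : ℂ)) := by
  unfold gb
  have h1 : Commute (-((β : ℂ) • K)) (-((β : ℂ) • diagonal fun i => (μ i : ℂ))) := by
    have h0 : Commute K (diagonal fun i => (μ i : ℂ)) := hc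
    exact ((h0.smul_left _).smul_right _).neg_left.neg_right
  have h2 : -((β : ℂ) • diagonal fun i => (μ i : ℂ)) =
      diagonal fun i => ((-(β * μ i) : ℝ) : ℂ) := by
    ext i j
    by_cases h : i = j
    · subst h; simp
    · simp [h]
  rw [smul_add, neg_add, Matrix.exp_add_of_commute _ _ h1, h2, Matrix.exp_diagonal, mul_one]
  congr 4
  ext i
  rw [Pi.coe_exp, ← Complex.exp_eq_exp_ℂ, Complex.ofReal_exp]

theorem peierls [Nonempty n] (β : ℝ) {K : Matrix n n ℂ} (hK : K.IsHermitian) (μ : n → ℝ)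
    (hc : K * diagonal (fun i => (μ i : ℂ)) = diagonal (fun i => (μ i : ℂ)) * K) :
    Real.log (gb β K 1) - Real.log (gb β (K + diagonal fun i => (μ i : ℂ)) 1) ≤
      β * (gb β K (diagonal fun i => (μ i : ℂ)) / gb β K 1) := by
  have hZ := gb_pos β hK
  set a := β * (gb β K (diagonal fun i => (μ i : ℂ)) / gb β K 1) with ha
  have h1 := gb_diag β hK (fun i => Real.exp (-a) * (1 + a) - Real.exp (-a) * β * μ i)
    (fun i => Real.exp (-(β * μ i))) fun i => by
      have h2 := Real.add_one_le_exp (a - β * μ i)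
      have h3 : Real.exp (-(β * μ i)) = Real.exp (-a) * Real.exp (a - β * μ i) := by
        rw [← Real.exp_add]; congr 1; ring
      rw [h3]
      nlinarith [Real.exp_pos (-a)]
  have h2 : (diagonal fun i => ((Real.exp (-a) * (1 + a) - Real.exp (-a) * β * μ i : ℝ) : ℂ)) =
      ((Real.exp (-a) * (1 + a) : ℝ) : ℂ) • (1 : Matrix n n ℂ) -
        ((Real.exp (-a) * β : ℝ) : ℂ) • diagonal fun i => (μ i : ℂ) := by
    ext i j
    by_cases h : i = j
    · subst h; simp
    · simp [h]
  rw [h2, gb_sub, gb_smul, gb_smul, ← peierls_eq β K μ hc] at h1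
  have h3 : β * gb β K (diagonal fun i => (μ i : ℂ)) = a * gb β K 1 := by
    rw [ha]; field_simp
  have h4 : Real.exp (-a) * gb β K 1 ≤ gb β (K + diagonal fun i => (μ i : ℂ)) 1 := by
    have h5 : Real.exp (-a) * β * gb β K (diagonal fun i => (μ i : ℂ)) =
        Real.exp (-a) * (a * gb β K 1) := by rw [← h3]; ring
    rw [h5] at h1
    linarith
  have h5 := Real.log_le_log (mul_pos (Real.exp_pos _) hZ) h4
  rw [Real.log_mul (Real.exp_pos _).ne' hZ.ne', Real.log_exp] at h5
  linarith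

end Vale.Agent.P361
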