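import Vale.Agent.P361.Op

open Matrix

namespace Vale.Agent.P361

theorem spin_two (d : ℕ) : spin d 2 =
    diagonal fun j : Fin (d + 1) => (((d : ℝ) / 2 - ((j : ℕ) : ℝ) : ℝ) : ℂ) := rfl

theorem spin_zero (d : ℕ) : spin d 0 = (1 / 2 : ℂ) • (Sp d + (Sp d)ᴴ) := rfl

theorem spin_one (d : ℕ) : spin d 1 = (1 / (2 * Complex.I) : ℂ) • (Sp d - (Sp d)ᴴ) := rfl

theorem sp_sq (d : ℕ) (j : Fin (d + 1)) :
    ((Real.sqrt (((j : ℕ) : ℝ) * ((d : ℝ) + 1 - ((j : ℕ) : ℝ))) : ℝ) : ℂ) *
      ((Real.sqrt (((j : ℕ) : ℝ) * ((d : ℝ) + 1 - ((j : ℕ) : ℝ))) : ℝ) : ℂ) =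
      ((((j : ℕ) : ℝ) * ((d : ℝ) + 1 - ((j : ℕ) : ℝ)) : ℝ) : ℂ) := by
  have h : ((j : ℕ) : ℝ) ≤ d := Nat.cast_le.2 (Nat.lt_succ_iff.1 j.2)
  rw [← Complex.ofReal_mul, Real.mul_self_sqrt (mul_nonneg (Nat.cast_nonneg _) (by linarith))]

theorem sp_star (d : ℕ) (i j : Fin (d + 1)) : star (Sp d i j) = Sp d i j := by
  unfold Sp
  split_ifs
  · exact Complex.conj_ofReal _
  · exact star_zero _

theorem sp_z (d : ℕ) : spin d 2 * Sp d - Sp d * spin d 2 = Sp d := by
  ext i j
  rw [spin_two, Matrix.sub_apply, diagonal_mul, mul_diagonal]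
  unfold Sp
  split_ifs with h
  · rw [h]
    push_cast
    ring
  · simp

theorem sp_ba (d : ℕ) : (Sp d)ᴴ * Sp d =
    diagonal fun j : Fin (d + 1) => ((((j : ℕ) : ℝ) * ((d : ℝ) + 1 - ((j : ℕ) : ℝ)) : ℝ) : ℂ) := by
  ext i j
  rw [Matrix.mul_apply, diagonal_apply]
  simp only [conjTranspose_apply, sp_star]
  split_ifs with h
  · subst h
    rcases Nat.eq_zero_or_pos i with h0 | h0
    · rw [Finset.sum_eq_zero fun k _ => by
        unfold Sp
        rw [if_neg (by omega), zero_mul], h0]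
      simp
    · rw [Finset.sum_eq_single (⟨i - 1, by omega⟩ : Fin (d + 1)) (fun k _ hk => by
        unfold Sp
        rw [if_neg (fun e => hk (Fin.ext (by simp only; omega))), zero_mul])
        (fun h => absurd (Finset.mem_univ _) h)]
      unfold Sp
      rw [if_pos (by simp only; omega)]
      exact sp_sq d i
  · refine Finset.sum_eq_zero fun k _ => ?_
    unfold Sp
    split_ifs with h1 h2
    · exact absurd (Fin.ext (h1.trans h2.symm)) h
    · exact mul_zero _
    · exact zero_mul _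
    · exact zero_mul _

theorem sp_aa (d : ℕ) : Sp d * (Sp d)ᴴ =
    diagonal fun j : Fin (d + 1) => (((((j : ℕ) : ℝ) + 1) * ((d : ℝ) - ((j : ℕ) : ℝ)) : ℝ) : ℂ) := by
  ext i j
  rw [Matrix.mul_apply, diagonal_apply]
  simp only [conjTranspose_apply, sp_star]
  split_ifs with h
  · subst h
    rcases (Nat.lt_succ_iff.1 i.2).lt_or_eq with h0 | h0
    · rw [Finset.sum_eq_single (⟨i + 1, by omega⟩ : Fin (d + 1)) (fun k _ hk => by
        unfold Sp
        rw [if_neg (fun e => hk (Fin.ext e)), zero_mul])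
        (fun h => absurd (Finset.mem_univ _) h)]
      unfold Sp
      rw [if_pos rfl, sp_sq]
      push_cast
      ring
    · rw [Finset.sum_eq_zero fun k _ => by
        unfold Sp
        rw [if_neg (by omega), zero_mul], h0]
      simp
  · refine Finset.sum_eq_zero fun k _ => ?_
    unfold Sp
    split_ifs with h1 h2
    · exact absurd (Fin.ext (by omega)) h
    · exact mul_zero _
    · exact zero_mul _
    · exact zero_mul _

theorem sp_ab (d : ℕ) : Sp d * (Sp d)ᴴ - (Sp d)ᴴ * Sp d = (2 : ℂ) • spin d 2 := by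
  rw [sp_aa, sp_ba, spin_two, diagonal_sub, ← diagonal_smul]
  congr 1
  ext j
  simp only [Pi.smul_apply, smul_eq_mul]
  push_cast
  ring

/-- uses only `op_add op_sub op_smul op_ct` -/
theorem dot_eq {Λ : Type} [Fintype Λ] [DecidableEq Λ] (d : ℕ) (x y : Λ) :
    ∑ a : Fin 3, op x (spin d a) * op y (spin d a) = op x (spin d 2) * op y (spin d 2) +
      (1 / 2 : ℂ) • (op x (Sp d) * (op y (Sp d))ᴴ + (op x (Sp d))ᴴ * op y (Sp d)) := by
  have hI : (1 / (2 * Complex.I) : ℂ) * (1 / (2 * Complex.I)) = -(1 / 4) := by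
    rw [div_mul_div_comm, mul_mul_mul_comm, Complex.I_mul_I]
    norm_num
  rw [Fin.sum_univ_three, spin_zero, spin_one]
  simp only [op_smul, op_add, op_sub, op_ct, smul_mul_smul_comm, hI, add_mul, mul_add, sub_mul,
    mul_sub]
  module

/-- sanity check: the matrices are Hermitian, satisfy the commutation relations and the Casimir -/
theorem spin_ok (d : ℕ) : (∀ a, (spin d a).IsHermitian) ∧
    spin d 0 * spin d 1 - spin d 1 * spin d 0 = Complex.I • spin d 2 ∧
    spin d 1 * spin d 2 - spin d 2 * spin d 1 = Complex.I • spin d 0 ∧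
    spin d 2 * spin d 0 - spin d 0 * spin d 2 = Complex.I • spin d 1 ∧
    ∑ a : Fin 3, spin d a * spin d a = (((d : ℂ) / 2) * ((d : ℂ) / 2 + 1)) • 1 := by
  have hc : (1 / (2 * Complex.I) : ℂ) = -(Complex.I / 2) := by
    rw [div_eq_iff (by simp)]
    linear_combination Complex.I_mul_I
  have h2 : (spin d 2).IsHermitian := by
    rw [spin_two]
    exact isHermitian_diagonal_iff.2 fun i => Complex.conj_ofReal _
  have hz := sp_z d
  have hz' : (Sp d)ᴴ * spin d 2 - spin d 2 * (Sp d)ᴴ = (Sp d)ᴴ := by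
    have := congrArg conjTranspose hz
    rwa [conjTranspose_sub, conjTranspose_mul, conjTranspose_mul, h2.eq] at this
  have hab := sp_ab d
  have hII := Complex.I_mul_I
  refine ⟨fun a => ?_, ?_, ?_, ?_, ?_⟩
  · fin_cases a
    · show (spin d 0)ᴴ = spin d 0
      rw [spin_zero, conjTranspose_smul, conjTranspose_add, conjTranspose_conjTranspose,
        add_comm (Sp d)]
      simp
    · show (spin d 1)ᴴ = spin d 1
      rw [spin_one, hc, conjTranspose_smul, conjTranspose_sub, conjTranspose_conjTranspose]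
      have e : star (-(Complex.I / 2)) = Complex.I / 2 := by simp [neg_div]
      rw [e]
      module
    · exact h2
  · rw [spin_zero, spin_one, hc]
    simp only [smul_mul_smul_comm, add_mul, mul_add, sub_mul, mul_sub]
    linear_combination (norm := module) (Complex.I / 2) • hab
  · rw [spin_zero, spin_one, hc]
    simp only [smul_mul_assoc, mul_smul_comm, add_mul, mul_add, sub_mul, mul_sub]
    linear_combination (norm := module) (Complex.I / 2) • hz + (Complex.I / 2) • hz'
  · rw [spin_zero, spin_one, hc, smul_smul,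
      show Complex.I * -(Complex.I / 2) = 1 / 2 by linear_combination (-1 / 2) * hII]
    simp only [smul_mul_assoc, mul_smul_comm, add_mul, mul_add, sub_mul, mul_sub]
    linear_combination (norm := module) (1 / 2 : ℂ) • hz - (1 / 2 : ℂ) • hz'
  · have h3 : spin d 2 * spin d 2 + (1 / 2 : ℂ) • (Sp d * (Sp d)ᴴ + (Sp d)ᴴ * Sp d) =
        (((d : ℂ) / 2) * ((d : ℂ) / 2 + 1)) • 1 := by
      rw [sp_aa, sp_ba, spin_two, diagonal_mul_diagonal, diagonal_add, ← diagonal_smul,
        diagonal_add, smul_one_eq_diagonal]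
      congr 1
      ext j
      simp only [Pi.smul_apply, smul_eq_mul]
      push_cast
      ring
    rw [Fin.sum_univ_three, spin_zero, spin_one, hc, ← h3]
    simp only [smul_mul_smul_comm, add_mul, mul_add, sub_mul, mul_sub,
      show -(Complex.I / 2) * -(Complex.I / 2) = -(1 / 4) by linear_combination (1 / 4) * hII]
    module

end Vale.Agent.P361
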