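import Vale.Agent.P361.Dbl
import Vale.Agent.P361.Spin
import Vale.Agent.P361.Gauss
import Vale.Agent.P361.Peierls

open Matrix

namespace Vale.Agent.P361

/-- abstract summation over plane waves -/
theorem wave_bound {N : ℕ} (S Z β h a : ℝ) (R : ℕ) (ζ : Site N → ℝ) (P Q : Site N → Site N → ℝ)
    (hβ : 0 ≤ β) (hh : 0 ≤ h) (ha : 0 ≤ a) (hS : 0 ≤ S) (hZ : 0 ≤ Z)
    (hζ : ∀ x, ζ x ≤ S * Z) (hQ : ∀ x y, Q x y ≤ S ^ 2 * Z)
    (hP : ∀ x y, 2 * P x y ≤ P x x + P y y) (hP' : ∀ x, P x x ≤ 2 * S * (S * Z - ζ x))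
    (hm : S * (2 * S * Z * (Fintype.card (Site N) : ℝ) - ∑ x, ζ x) ≤ a * ∑ x, ζ x)
    (H : ∀ (u : Site N → ℝ) (t : ℝ), 0 ≤ t →
      ∑ l ∈ Finset.range R, Real.exp (-((l + 1) * t)) *
      ((1 + (l + 1) * t) * (∑ x, 2 * u x ^ 2 * ζ x) - (l + 1) *
        (β * (1 / 2 * (∑ x, ∑ y, if adj x y then (u x - u y) ^ 2 * (2 * Q x y + P x y) else 0) +
          h * ∑ x, 2 * u x ^ 2 * ζ x))) ≤ ∑ x, ∑ y, u x * u y * P x y) :
    (∑ x, ζ x) * ∑ l ∈ Finset.range R, Real.exp (-((l + 1) * (β * h))) *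
      gs N ((l + 1) * (β * a)) ^ 3 ≤ S * (S * Z * (Fintype.card (Site N) : ℝ) - ∑ x, ζ x) := by
  obtain ⟨V, hV⟩ : ∃ V : ℝ, V = Fintype.card (Site N) := ⟨_, rfl⟩
  have V0 : 0 < V := by rw [hV, card_site]; positivity
  obtain ⟨M, hM⟩ : ∃ M, M = ∑ x, ζ x := ⟨_, rfl⟩
  have key : ∀ k : Site N, 2 * M * ∑ l ∈ Finset.range R,
      Real.exp (-((l + 1) * (β * (a * qq k + h)))) ≤
      ∑ x, ∑ y, Real.cos (ph k x - ph k y) * P x y := by
    intro k
    have q0 : 0 ≤ qq k := Finset.sum_nonneg fun i _ => sq_nonneg _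
    obtain ⟨t, ht⟩ : ∃ t, t = β * (a * qq k + h) := ⟨_, rfl⟩
    have t0 : 0 ≤ t := by rw [ht]; positivity
    have h1 := H (fun x => Real.cos (ph k x)) t t0
    have h2 := H (fun x => Real.sin (ph k x)) t t0
    have c1 : ∑ x, 2 * Real.cos (ph k x) ^ 2 * ζ x + ∑ x, 2 * Real.sin (ph k x) ^ 2 * ζ x =
        2 * M := by
      rw [hM, Finset.mul_sum, ← Finset.sum_add_distrib]
      refine Finset.sum_congr rfl fun x _ => ?_
      have := Real.cos_sq_add_sin_sq (ph k x)
      linear_combination 2 * ζ x * this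
    have c2 : ∑ x, ∑ y, Real.cos (ph k x) * Real.cos (ph k y) * P x y +
        ∑ x, ∑ y, Real.sin (ph k x) * Real.sin (ph k y) * P x y =
        ∑ x, ∑ y, Real.cos (ph k x - ph k y) * P x y := by
      rw [← Finset.sum_add_distrib]
      refine Finset.sum_congr rfl fun x _ => ?_
      rw [← Finset.sum_add_distrib]
      refine Finset.sum_congr rfl fun y _ => ?_
      rw [Real.cos_sub]
      ring
    obtain ⟨w, hw⟩ : ∃ w : Site N → Site N → ℝ,
        w = fun x y => if adj x y then 2 - 2 * Real.cos (ph k x - ph k y) else 0 := ⟨_, rfl⟩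
    have w1 : ∀ x, ∑ y, w x y ≤ 2 * qq k := fun x => by rw [hw]; exact wave_adj k x
    have w2 : ∀ x y, w x y = w y x := fun x y => by
      rw [hw]
      by_cases c : adj x y
      · simp only [c, adj_symm c, if_true]
        rw [← Real.cos_neg, neg_sub]
      · have c' : ¬ adj y x := fun e => c (adj_symm e)
        simp only [c, c', if_false]
    have c3 : (∑ x, ∑ y, if adj x y then (Real.cos (ph k x) - Real.cos (ph k y)) ^ 2 *
          (2 * Q x y + P x y) else 0) +
        (∑ x, ∑ y, if adj x y then (Real.sin (ph k x) - Real.sin (ph k y)) ^ 2 *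
          (2 * Q x y + P x y) else 0) ≤
        ∑ x, ∑ y, w x y * (S ^ 2 * Z + S * (S * Z - ζ x)) +
          ∑ x, ∑ y, w y x * (S ^ 2 * Z + S * (S * Z - ζ y)) := by
      rw [← Finset.sum_add_distrib, ← Finset.sum_add_distrib]
      refine Finset.sum_le_sum fun x _ => ?_
      rw [← Finset.sum_add_distrib, ← Finset.sum_add_distrib]
      refine Finset.sum_le_sum fun y _ => ?_
      rw [w2 y x, hw]
      by_cases c : adj x y
      · simp only [c, if_true]
        have e : (Real.cos (ph k x) - Real.cos (ph k y)) ^ 2 +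
            (Real.sin (ph k x) - Real.sin (ph k y)) ^ 2 = 2 - 2 * Real.cos (ph k x - ph k y) := by
          rw [Real.cos_sub]
          linear_combination Real.cos_sq_add_sin_sq (ph k x) + Real.cos_sq_add_sin_sq (ph k y)
        have e0 : 0 ≤ 2 - 2 * Real.cos (ph k x - ph k y) := by
          linarith [Real.cos_le_one (ph k x - ph k y)]
        rw [← add_mul, e, ← mul_add]
        refine mul_le_mul_of_nonneg_left ?_ e0
        linarith [hQ x y, hP x y, hP' x, hP' y]
      · simp [c]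
    have c4 : ∑ x, ∑ y, w x y * (S ^ 2 * Z + S * (S * Z - ζ x)) ≤
        2 * qq k * (S * (2 * S * Z * V - M)) := by
      have e : S * (2 * S * Z * V - M) = ∑ x, (S ^ 2 * Z + S * (S * Z - ζ x)) := by
        rw [Finset.sum_add_distrib, ← Finset.mul_sum _ _ S, Finset.sum_sub_distrib, ← hM]
        simp only [Finset.sum_const, Finset.card_univ, nsmul_eq_mul, ← hV]
        ring
      rw [e, Finset.mul_sum]
      refine Finset.sum_le_sum fun x _ => ?_
      rw [← Finset.sum_mul]
      refine mul_le_mul_of_nonneg_right (w1 x) ?_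
      have := mul_nonneg hS (sub_nonneg.2 (hζ x))
      positivity
    rw [Finset.sum_comm (f := fun x y => w y x * (S ^ 2 * Z + S * (S * Z - ζ y)))] at c3
    rw [← hV, ← hM] at hm
    have c5 := mul_le_mul_of_nonneg_left hm q0
    rw [← ht, ← c2, Finset.mul_sum]
    refine le_trans ?_ (add_le_add h1 h2)
    rw [← Finset.sum_add_distrib]
    refine Finset.sum_le_sum fun l _ => ?_
    generalize (∑ x, ∑ y, if adj x y then (Real.cos (ph k x) - Real.cos (ph k y)) ^ 2 *
          (2 * Q x y + P x y) else 0) = D1 at c3 ⊢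
    generalize (∑ x, ∑ y, if adj x y then (Real.sin (ph k x) - Real.sin (ph k y)) ^ 2 *
          (2 * Q x y + P x y) else 0) = D2 at c3 ⊢
    generalize ∑ x, 2 * Real.cos (ph k x) ^ 2 * ζ x = C1 at c1 ⊢
    generalize ∑ x, 2 * Real.sin (ph k x) ^ 2 * ζ x = C2 at c1 ⊢
    rw [← mul_add, mul_comm (2 * M)]
    refine mul_le_mul_of_nonneg_left ?_ (Real.exp_pos _).le
    have c6 : D1 + D2 ≤ 4 * (qq k * (a * M)) := by linarith
    have c7 := mul_le_mul_of_nonneg_left c6 (show 0 ≤ ((l : ℝ) + 1) * β by positivity)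
    have e : C2 = 2 * M - C1 := by linarith
    rw [e, ht]
    nlinarith
  have s1 := Finset.sum_le_sum fun k (_ : k ∈ Finset.univ) => key k
  have s2 : ∑ k : Site N, ∑ x, ∑ y, Real.cos (ph k x - ph k y) * P x y = V * ∑ x, P x x := by
    rw [Finset.sum_comm, Finset.mul_sum]
    refine Finset.sum_congr rfl fun x _ => ?_
    rw [Finset.sum_comm]
    simp only [← Finset.sum_mul, wave_orth, ← hV]
    simp
  have s3 : ∑ k : Site N, 2 * M * ∑ l ∈ Finset.range R,
      Real.exp (-((l + 1) * (β * (a * qq k + h)))) = V * (2 * (M * ∑ l ∈ Finset.range R,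
        Real.exp (-((l + 1) * (β * h))) * gs N ((l + 1) * (β * a)) ^ 3)) := by
    rw [← Finset.mul_sum, Finset.sum_comm]
    have : ∀ l ∈ Finset.range R, ∑ k : Site N, Real.exp (-((l + 1) * (β * (a * qq k + h)))) =
        V * (Real.exp (-((l + 1) * (β * h))) * gs N ((l + 1) * (β * a)) ^ 3) := fun l _ => by
      rw [mul_left_comm, hV, ← gs_cube, Finset.mul_sum]
      refine Finset.sum_congr rfl fun k _ => ?_
      rw [← Real.exp_add]
      congr 1
      ring
    rw [Finset.sum_congr rfl this, ← Finset.mul_sum]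
    ring
  have s4 : ∑ x, P x x ≤ 2 * (S * (S * Z * V - M)) := by
    refine (Finset.sum_le_sum fun x _ => hP' x).trans_eq ?_
    rw [← Finset.mul_sum, Finset.sum_sub_distrib, ← hM]
    simp only [Finset.sum_const, Finset.card_univ, nsmul_eq_mul, ← hV]
    ring
  rw [s2, s3] at s1
  have s5 := le_of_mul_le_mul_left s1 V0
  rw [← hV, ← hM]
  linarith

theorem rel_op {Λ : Type} [Fintype Λ] [DecidableEq Λ] (d : ℕ) :
    Rel (fun x : Λ => op x (Sp d)) (fun x => (op x (Sp d))ᴴ) (fun x => op x (spin d 2)) := by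
  have hz : (spin d 2)ᴴ = spin d 2 := by
    simp [spin, diagonal_conjTranspose, Pi.star_def]
  have zb : spin d 2 * (Sp d)ᴴ - (Sp d)ᴴ * spin d 2 = -(Sp d)ᴴ := by
    have := congrArg conjTranspose (sp_z d)
    rw [conjTranspose_sub, conjTranspose_mul, conjTranspose_mul, hz] at this
    rw [← neg_sub, this]
  refine ⟨fun x => ?_, fun x => ?_, fun x => ?_, fun x y => ?_, fun x y => ?_, fun x y => ?_,
    fun x y h => op_comm h _ _, fun x y h => ?_, fun x y h => ?_⟩
  · rw [← op_mul, ← op_mul, ← op_sub, sp_z]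
  · rw [← op_ct, ← op_mul, ← op_mul, ← op_sub, zb, ← neg_one_smul ℂ, op_smul, neg_one_smul]
  · rw [← op_ct, ← op_mul, ← op_mul, ← op_sub, sp_ab, op_smul]
  · by_cases h : x = y
    · rw [h]
    · exact op_comm h _ _
  · by_cases h : x = y
    · rw [h]
    · rw [← op_ct, ← op_ct]
      exact op_comm h _ _
  · by_cases h : x = y
    · rw [h]
    · exact op_comm h _ _
  · rw [← op_ct]
    exact op_comm h _ _
  · rw [← op_ct]
    exact op_comm h _ _

end Vale.Agent.P361
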