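import Vale.Agent.P361.Defs

namespace Vale.Agent.P361

/-- commutation relations of raising `a`, lowering `b` and third components `z` -/
structure Rel {Λ R : Type} [Ring R] [Algebra ℂ R] (a b z : Λ → R) : Prop where
  za : ∀ x, z x * a x - a x * z x = a x
  zb : ∀ x, z x * b x - b x * z x = -b x
  ab : ∀ x, a x * b x - b x * a x = (2 : ℂ) • z x
  aa : ∀ x y, a x * a y = a y * a x
  bb : ∀ x y, b x * b y = b y * b x
  zz : ∀ x y, z x * z y = z y * z x
  za' : ∀ x y, x ≠ y → z x * a y = a y * z x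
  zb' : ∀ x y, x ≠ y → z x * b y = b y * z x
  ab' : ∀ x y, x ≠ y → a x * b y = b y * a x

variable {Λ R : Type} [Fintype Λ] [DecidableEq Λ] [Ring R] [Algebra ℂ R] {a b z : Λ → R}

/-- bond term -/
noncomputable def bond (a b z : Λ → R) (x y : Λ) : R :=
  z x * z y + (1 / 2 : ℂ) • (a x * b y + b x * a y)

/-- commutator -/
def cm (p q : R) : R := p * q - q * p

omit [Algebra ℂ R] in
theorem cm_mul_left (p q r : R) : cm (p * q) r = p * cm q r + cm p r * q := by
  unfold cm
  noncomm_ring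

omit [Algebra ℂ R] in
theorem cm_mul_right (p q r : R) : cm r (p * q) = cm r p * q + p * cm r q := by
  unfold cm
  noncomm_ring

omit [Algebra ℂ R] in
theorem cm_add_left (p q r : R) : cm (p + q) r = cm p r + cm q r := by
  unfold cm
  noncomm_ring

omit [Algebra ℂ R] in
theorem cm_sub_right (p q r : R) : cm r (p - q) = cm r p - cm r q := by
  unfold cm
  noncomm_ring

omit [Algebra ℂ R] in
theorem cm_swap (p q : R) : cm p q = -cm q p := by
  unfold cm
  rw [neg_sub]

theorem cm_smul_left (c : ℂ) (p r : R) : cm (c • p) r = c • cm p r := by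
  unfold cm
  rw [smul_mul_assoc, mul_smul_comm, smul_sub]

theorem cm_smul_right (c : ℂ) (p r : R) : cm r (c • p) = c • cm r p := by
  unfold cm
  rw [smul_mul_assoc, mul_smul_comm, smul_sub]

omit [Algebra ℂ R] [DecidableEq Λ] in
theorem cm_sum_left (f : Λ → R) (r : R) : cm (∑ x, f x) r = ∑ x, cm (f x) r := by
  unfold cm
  rw [Finset.sum_mul, Finset.mul_sum, Finset.sum_sub_distrib]

omit [Algebra ℂ R] [DecidableEq Λ] in
theorem cm_sum_right (f : Λ → R) (r : R) : cm r (∑ x, f x) = ∑ x, cm r (f x) := by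
  unfold cm
  rw [Finset.sum_mul, Finset.mul_sum, Finset.sum_sub_distrib]

omit [Algebra ℂ R] [DecidableEq Λ] in
theorem cm_single (f : Λ → R) (r : R) (x : Λ) (h : ∀ y, y ≠ x → r * f y = f y * r) :
    cm r (∑ y, f y) = cm r (f x) := by
  rw [cm_sum_right]
  exact Finset.sum_eq_single x (fun y _ hy => sub_eq_zero.2 (h y hy))
    fun hx => absurd (Finset.mem_univ x) hx

omit [DecidableEq Λ] in
theorem cm_single' (u : Λ → ℂ) (f : Λ → R) (r : R) (x : Λ)
    (h : ∀ y, y ≠ x → r * f y = f y * r) : cm r (∑ y, u y • f y) = u x • cm r (f x) := by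
  rw [cm_single (fun y => u y • f y) r x fun y hy => by
    rw [smul_mul_assoc, mul_smul_comm, h y hy], cm_smul_right]

omit [DecidableEq Λ] in
theorem cm_zB (h : Rel a b z) (u : Λ → ℂ) (x : Λ) : cm (z x) (∑ y, u y • b y) = -(u x • b x) := by
  rw [cm_single' u b _ x fun y hy => h.zb' x y hy.symm, cm, h.zb, smul_neg]

omit [DecidableEq Λ] in
theorem cm_aB (h : Rel a b z) (u : Λ → ℂ) (x : Λ) :
    cm (a x) (∑ y, u y • b y) = (2 * u x) • z x := by
  rw [cm_single' u b _ x fun y hy => h.ab' x y hy.symm, cm, h.ab, smul_smul, mul_comm]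

omit [DecidableEq Λ] in
theorem cm_bB (h : Rel a b z) (u : Λ → ℂ) (x : Λ) : cm (b x) (∑ y, u y • b y) = 0 := by
  rw [cm_single' u b _ x fun y _ => h.bb x y, cm, sub_self, smul_zero]

omit [DecidableEq Λ] in
theorem cm_zM (h : Rel a b z) (x : Λ) : cm (z x) (∑ y, z y) = 0 := by
  rw [cm_single z _ x fun y _ => h.zz x y, cm, sub_self]

omit [DecidableEq Λ] in
theorem cm_aM (h : Rel a b z) (x : Λ) : cm (a x) (∑ y, z y) = -a x := by
  rw [cm_single z _ x fun y hy => (h.za' y x hy).symm, cm_swap, cm, h.za]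

omit [DecidableEq Λ] in
theorem cm_bM (h : Rel a b z) (x : Λ) : cm (b x) (∑ y, z y) = b x := by
  rw [cm_single z _ x fun y hy => (h.zb' y x hy).symm, cm_swap, cm, h.zb, neg_neg]

omit [DecidableEq Λ] in
theorem cm_Az (h : Rel a b z) (u : Λ → ℂ) (x : Λ) : cm (∑ y, u y • a y) (z x) = -(u x • a x) := by
  rw [cm_swap, cm_single' u a _ x fun y hy => h.za' x y hy.symm, cm, h.za]

omit [DecidableEq Λ] in
theorem cm_Ab (h : Rel a b z) (u : Λ → ℂ) (x : Λ) :
    cm (∑ y, u y • a y) (b x) = (2 * u x) • z x := by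
  rw [cm_swap, cm_single' u a _ x fun y hy => (h.ab' y x hy).symm, cm_swap, cm, h.ab, smul_neg,
    neg_neg, smul_smul, mul_comm]

theorem rel_ab (h : Rel a b z) (u : Λ → ℂ) :
    (∑ x, u x • a x) * (∑ x, u x • b x) - (∑ x, u x • b x) * (∑ x, u x • a x) =
      ∑ x, (2 * u x ^ 2) • z x := by
  change cm _ _ = _
  rw [cm_sum_left]
  refine Finset.sum_congr rfl fun x _ => ?_
  rw [cm_smul_left, cm_aB h, smul_smul]
  congr 1
  ring

theorem rel_Mb (h : Rel a b z) (u : Λ → ℂ) :
    (∑ x, z x) * (∑ x, u x • b x) - (∑ x, u x • b x) * (∑ x, z x) = -∑ x, u x • b x := by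
  change cm _ _ = _
  rw [cm_sum_left, ← Finset.sum_neg_distrib]
  exact Finset.sum_congr rfl fun x _ => cm_zB h u x

theorem rel_bondM (h : Rel a b z) {x y : Λ} (hxy : x ≠ y) :
    bond a b z x y * (∑ w, z w) = (∑ w, z w) * bond a b z x y := by
  rw [← sub_eq_zero]
  change cm _ _ = _
  unfold bond
  simp only [cm_add_left, cm_smul_left, cm_mul_left, cm_zM h, cm_aM h, cm_bM h, mul_zero, zero_mul,
    mul_neg, neg_mul, add_neg_cancel, neg_add_cancel, add_zero, smul_zero]

theorem rel_bondb (h : Rel a b z) (u : Λ → ℂ) {x y : Λ} (hxy : x ≠ y) :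
    bond a b z x y * (∑ w, u w • b w) - (∑ w, u w • b w) * bond a b z x y =
      (u x - u y) • (z x * b y - b x * z y) := by
  change cm _ _ = _
  unfold bond
  simp only [cm_add_left, cm_smul_left, cm_mul_left, cm_zB h, cm_aB h, cm_bB h, mul_zero, zero_mul,
    mul_neg, neg_mul, add_zero, zero_add, smul_mul_assoc, mul_smul_comm]
  module

theorem rel_dbl (h : Rel a b z) (u : Λ → ℂ) {x y : Λ} (hxy : x ≠ y) :
    (∑ w, u w • a w) * (z x * b y - b x * z y) - (z x * b y - b x * z y) * (∑ w, u w • a w) =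
      -((2 * (u x - u y)) • (z x * z y) + (u x • (a x * b y) - u y • (b x * a y))) := by
  change cm _ _ = _
  simp only [cm_sub_right, cm_mul_right, cm_Az h, cm_Ab h, mul_neg, neg_mul, smul_mul_assoc,
    mul_smul_comm]
  module

end Vale.Agent.P361
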