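import Vale.Agent.P361.Gibbs

open Matrix

namespace Vale.Agent.P361

variable {n : Type} [Fintype n] [DecidableEq n]

theorem roep_tel (R : ℕ) (w : ℝ) :
    ∑ l ∈ Finset.range R, Real.exp (-((l + 1) * w)) * (1 - Real.exp (-w)) =
      Real.exp (-w) - Real.exp (-((R + 1) * w)) := by
  induction R with
  | zero => simp
  | succ R ih =>
    rw [Finset.sum_range_succ, ih]
    have : Real.exp (-(((R + 1 : ℕ) + 1) * w)) = Real.exp (-((R + 1) * w)) * Real.exp (-w) := by
      rw [← Real.exp_add]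
      congr 1
      push_cast
      ring
    rw [this]
    ring

/-- tangent line of `exp (-(l+1) w)` at `t`, telescoping; for `w < 0` the left side is `≤ 0` -/
theorem roep_pt (R : ℕ) (t w : ℝ) (ht : 0 ≤ t) :
    ∑ l ∈ Finset.range R, Real.exp (-((l + 1) * t)) *
      ((1 + (l + 1) * t) * (1 - Real.exp (-w)) - (l + 1) * (w * (1 - Real.exp (-w)))) ≤
      Real.exp (-w) := by
  rcases le_total 0 w with hw | hw
  · have h1 : 0 ≤ 1 - Real.exp (-w) := sub_nonneg.2 (Real.exp_le_one_iff.2 (by linarith))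
    calc _ ≤ ∑ l ∈ Finset.range R, Real.exp (-((l + 1) * w)) * (1 - Real.exp (-w)) := by
          refine Finset.sum_le_sum fun l _ => ?_
          have h2 := Real.add_one_le_exp ((l + 1) * t - (l + 1) * w)
          have h3 : Real.exp (-((l + 1) * w)) =
              Real.exp (-((l + 1) * t)) * Real.exp ((l + 1) * t - (l + 1) * w) := by
            rw [← Real.exp_add]
            congr 1
            ring
          rw [h3, mul_assoc]
          refine mul_le_mul_of_nonneg_left ?_ (Real.exp_pos _).le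
          nlinarith [mul_le_mul_of_nonneg_right h2 h1]
      _ ≤ _ := by
          rw [roep_tel]
          linarith [Real.exp_pos (-((R + 1) * w))]
  · have h1 : 1 - Real.exp (-w) ≤ 0 := sub_nonpos.2 (Real.one_le_exp (by linarith))
    refine le_trans (Finset.sum_nonpos fun l _ => ?_) (Real.exp_pos _).le
    refine mul_nonpos_of_nonneg_of_nonpos (Real.exp_pos _).le ?_
    have h2 : (0 : ℝ) ≤ 1 + (l + 1) * t := by positivity
    have h3 : (0 : ℝ) ≤ l + 1 := by positivity
    have h4 := mul_nonneg h3 (mul_nonneg_of_nonpos_of_nonpos hw h1)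
    have h5 := mul_nonpos_of_nonneg_of_nonpos h2 h1
    linarith

theorem roep (β : ℝ) {K : Matrix n n ℂ} (hK : K.IsHermitian) (A : Matrix n n ℂ) (R : ℕ) (t : ℝ)
    (ht : 0 ≤ t) :
    ∑ l ∈ Finset.range R, Real.exp (-((l + 1) * t)) *
      ((1 + (l + 1) * t) * gb β K (A * Aᴴ - Aᴴ * A) - (l + 1) *
        (β * gb β K (A * (K * Aᴴ - Aᴴ * K) - (K * Aᴴ - Aᴴ * K) * A))) ≤ gb β K (Aᴴ * A) := by
  obtain ⟨U, E, h2, h1, h3, h4⟩ := exp_spec β hK
  set B := Uᴴ * A * U with hB
  set D : Matrix n n ℂ := diagonal fun a => (E a : ℂ) with hD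
  have c : ∀ X : Matrix n n ℂ, U * (Uᴴ * X) = X := fun X => by rw [← mul_assoc, h2, one_mul]
  have c' : ∀ X : Matrix n n ℂ, Uᴴ * (U * X) = X := fun X => by rw [← mul_assoc, h1, one_mul]
  have e1 : Uᴴ * (Aᴴ * A) * U = Bᴴ * B := by simp [hB, mul_assoc, c]
  have e2 : Uᴴ * (A * Aᴴ) * U = B * Bᴴ := by simp [hB, mul_assoc, c]
  have e3 : Uᴴ * (A * (K * Aᴴ - Aᴴ * K) - (K * Aᴴ - Aᴴ * K) * A) * U =
      B * (D * Bᴴ - Bᴴ * D) - (D * Bᴴ - Bᴴ * D) * B := by
    conv_lhs => rw [h3]
    simp [hB, mul_assoc, c, c', h1, mul_sub, sub_mul]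
  have e4 : (trace (diagonal (fun a => (Real.exp (-(β * E a)) : ℂ)) *
      (B * (D * Bᴴ - Bᴴ * D) - (D * Bᴴ - Bᴴ * D) * B))).re =
      ∑ a, ∑ b, (E b - E a) * (Real.exp (-(β * E a)) - Real.exp (-(β * E b))) * ‖B a b‖ ^ 2 := by
    have f1 : ∀ a b, (D * Bᴴ - Bᴴ * D) b a = ((E b - E a : ℝ) : ℂ) * star (B a b) := by
      intro a b
      simp only [hD, Matrix.sub_apply, diagonal_mul, mul_diagonal, conjTranspose_apply]
      push_cast
      ring
    generalize D * Bᴴ - Bᴴ * D = C at f1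
    have g1 : (trace (diagonal (fun a => (Real.exp (-(β * E a)) : ℂ)) * (B * C))).re =
        ∑ a, ∑ b, (E b - E a) * Real.exp (-(β * E a)) * ‖B a b‖ ^ 2 := by
      simp only [trace, diag_apply, diagonal_mul]
      simp only [mul_apply, Complex.re_sum, Finset.mul_sum, f1]
      refine Finset.sum_congr rfl fun a _ => Finset.sum_congr rfl fun b _ => ?_
      rw [mul_left_comm (B a b), RCLike.star_def, Complex.mul_conj', ← Complex.ofReal_pow,
        ← Complex.ofReal_mul, ← Complex.ofReal_mul, Complex.ofReal_re]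
      ring
    have g2 : (trace (diagonal (fun a => (Real.exp (-(β * E a)) : ℂ)) * (C * B))).re =
        ∑ a, ∑ b, (E b - E a) * Real.exp (-(β * E b)) * ‖B a b‖ ^ 2 := by
      rw [Finset.sum_comm]
      simp only [trace, diag_apply, diagonal_mul]
      simp only [mul_apply, Complex.re_sum, Finset.mul_sum, f1]
      refine Finset.sum_congr rfl fun b _ => Finset.sum_congr rfl fun a _ => ?_
      rw [mul_assoc _ (star (B a b)), RCLike.star_def, Complex.conj_mul', ← Complex.ofReal_pow,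
        ← Complex.ofReal_mul, ← Complex.ofReal_mul, Complex.ofReal_re]
      ring
    rw [mul_sub, trace_sub, Complex.sub_re, g1, g2, ← Finset.sum_sub_distrib]
    refine Finset.sum_congr rfl fun a _ => ?_
    rw [← Finset.sum_sub_distrib]
    exact Finset.sum_congr rfl fun b _ => by ring
  have k1 : gb β K (Aᴴ * A) = ∑ a, ∑ b, Real.exp (-(β * E b)) * ‖B a b‖ ^ 2 := by
    rw [gb, h4, P361H.tr_conj, e1, P361H.tr_diag_left]
  have k2 : gb β K (A * Aᴴ) = ∑ a, ∑ b, Real.exp (-(β * E a)) * ‖B a b‖ ^ 2 := by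
    rw [gb, h4, P361H.tr_conj, e2, P361H.tr_diag_right]
  have k3 : gb β K (A * (K * Aᴴ - Aᴴ * K) - (K * Aᴴ - Aᴴ * K) * A) =
      ∑ a, ∑ b, (E b - E a) * (Real.exp (-(β * E a)) - Real.exp (-(β * E b))) * ‖B a b‖ ^ 2 := by
    rw [gb, h4, P361H.tr_conj, e3, e4]
  rw [gb_sub, k1, k2, k3]
  simp only [Finset.mul_sum, ← Finset.sum_sub_distrib]
  rw [Finset.sum_comm]
  refine Finset.sum_le_sum fun a _ => ?_
  rw [Finset.sum_comm]
  refine Finset.sum_le_sum fun b _ => ?_
  have hp : Real.exp (-(β * E b)) = Real.exp (-(β * E a)) * Real.exp (-(β * (E b - E a))) := by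
    rw [← Real.exp_add]
    congr 1
    ring
  have := mul_le_mul_of_nonneg_left (roep_pt R t (β * (E b - E a)) ht)
    (mul_nonneg (Real.exp_pos (-(β * E a))).le (sq_nonneg ‖B a b‖))
  rw [Finset.mul_sum] at this
  calc _ = _ := Finset.sum_congr rfl fun l _ => by rw [hp]; ring
    _ ≤ _ := this
    _ = _ := by rw [hp]; ring

end Vale.Agent.P361
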