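import Vale.Agent.P361.Comm
import Vale.Agent.P361.Roep

open Matrix

namespace Vale.Agent.P361

theorem comm_K {Λ R : Type} [Fintype Λ] [DecidableEq Λ] [Ring R] [Algebra ℂ R] {a b z : Λ → R}
    (h : Rel a b z) (r : Λ → Λ → Prop) [∀ x y, Decidable (r x y)] (hr : ∀ x y, r x y → x ≠ y)
    (c : ℂ) (u : Λ → ℂ) (K A B : R)
    (hK : K = -((1 / 2 : ℂ) • ∑ x, ∑ y, if r x y then bond a b z x y else 0) - c • ∑ x, z x)
    (hA : A = ∑ w, u w • a w) (hB : B = ∑ w, u w • b w) :
    A * (K * B - B * K) - (K * B - B * K) * A =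
      (1 / 2 : ℂ) • (∑ x, ∑ y, if r x y then (u x - u y) •
        ((2 * (u x - u y)) • (z x * z y) + (u x • (a x * b y) - u y • (b x * a y))) else 0) +
        c • (A * B - B * A) := by
  have e1 : (∑ x, ∑ y, if r x y then bond a b z x y else 0) * B -
      B * (∑ x, ∑ y, if r x y then bond a b z x y else 0) =
      ∑ x, ∑ y, if r x y then (u x - u y) • (z x * b y - b x * z y) else 0 := by
    rw [Finset.sum_mul, Finset.mul_sum, ← Finset.sum_sub_distrib]
    refine Finset.sum_congr rfl fun x _ => ?_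
    rw [Finset.sum_mul, Finset.mul_sum, ← Finset.sum_sub_distrib]
    refine Finset.sum_congr rfl fun y _ => ?_
    split_ifs with hxy
    · rw [hB]
      exact rel_bondb h u (hr x y hxy)
    · simp
  have e2 : (∑ x, z x) * B - B * (∑ x, z x) = -B := by rw [hB]; exact rel_Mb h u
  have e3 : A * (∑ x, ∑ y, if r x y then (u x - u y) • (z x * b y - b x * z y) else 0) -
      (∑ x, ∑ y, if r x y then (u x - u y) • (z x * b y - b x * z y) else 0) * A =
      -∑ x, ∑ y, if r x y then (u x - u y) •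
        ((2 * (u x - u y)) • (z x * z y) + (u x • (a x * b y) - u y • (b x * a y))) else 0 := by
    rw [Finset.sum_mul, Finset.mul_sum, ← Finset.sum_sub_distrib, ← Finset.sum_neg_distrib]
    refine Finset.sum_congr rfl fun x _ => ?_
    rw [Finset.sum_mul, Finset.mul_sum, ← Finset.sum_sub_distrib, ← Finset.sum_neg_distrib]
    refine Finset.sum_congr rfl fun y _ => ?_
    split_ifs with hxy
    · rw [mul_smul_comm, smul_mul_assoc, ← smul_sub, hA, rel_dbl h u (hr x y hxy), smul_neg]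
    · simp
  generalize (∑ x, ∑ y, if r x y then bond a b z x y else 0) = H at hK e1
  generalize (∑ x, ∑ y, if r x y then (u x - u y) • (z x * b y - b x * z y) else 0) = W at e1 e3
  generalize (∑ x, ∑ y, if r x y then (u x - u y) •
    ((2 * (u x - u y)) • (z x * z y) + (u x • (a x * b y) - u y • (b x * a y))) else 0) = X at e3 ⊢
  generalize (∑ x, z x) = M at hK e2
  have e4 : K * B - B * K = -((1 / 2 : ℂ) • (H * B - B * H)) - c • (M * B - B * M) := by
    rw [hK]
    simp only [sub_mul, mul_sub, neg_mul, mul_neg, smul_mul_assoc, mul_smul_comm, smul_sub]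
    abel
  rw [e4, e1, e2]
  have e5 : X = -(A * W - W * A) := by rw [e3, neg_neg]
  rw [e5]
  simp only [sub_mul, mul_sub, neg_mul, mul_neg, smul_mul_assoc, mul_smul_comm, smul_sub, smul_neg]
  abel

variable {n : Type} [Fintype n] [DecidableEq n]

theorem gb_zero (β : ℝ) (K : Matrix n n ℂ) : gb β K 0 = 0 := by simp [gb]

theorem gb_dbl {Λ : Type} [Fintype Λ] [DecidableEq Λ] {a b z : Λ → Matrix n n ℂ}
    (h : Rel a b z) (hb : ∀ x, b x = (a x)ᴴ) (r : Λ → Λ → Prop) [∀ x y, Decidable (r x y)]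
    (hr : ∀ x y, r x y → x ≠ y) (c β : ℝ) (K : Matrix n n ℂ) (hH : K.IsHermitian)
    (hK : K = -((1 / 2 : ℂ) • ∑ x, ∑ y, if r x y then bond a b z x y else 0) - (c : ℂ) • ∑ x, z x)
    (u : Λ → ℝ) (R : ℕ) (t : ℝ) (ht : 0 ≤ t) :
    ∑ l ∈ Finset.range R, Real.exp (-((l + 1) * t)) *
      ((1 + (l + 1) * t) * (∑ x, 2 * u x ^ 2 * gb β K (z x)) - (l + 1) *
        (β * (1 / 2 * (∑ x, ∑ y, if r x y then (u x - u y) ^ 2 *
          (2 * gb β K (z x * z y) + gb β K (b x * a y)) else 0) +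
          c * ∑ x, 2 * u x ^ 2 * gb β K (z x)))) ≤
      ∑ x, ∑ y, u x * u y * gb β K (b x * a y) := by
  obtain ⟨A, hA⟩ : ∃ A, A = ∑ w, (u w : ℂ) • a w := ⟨_, rfl⟩
  have hB : Aᴴ = ∑ w, (u w : ℂ) • b w := by
    rw [hA, conjTranspose_sum]
    refine Finset.sum_congr rfl fun w _ => ?_
    rw [conjTranspose_smul, hb]
    simp
  have k := roep β hH A R t ht
  have e1 : gb β K (A * Aᴴ - Aᴴ * A) = ∑ x, 2 * u x ^ 2 * gb β K (z x) := by
    rw [hB, hA, rel_ab h, gb_sum]
    refine Finset.sum_congr rfl fun x _ => ?_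
    rw [← gb_smul]
    push_cast
    rfl
  have e2 : gb β K (Aᴴ * A) = ∑ x, ∑ y, u x * u y * gb β K (b x * a y) := by
    rw [hB, hA, Finset.sum_mul_sum, gb_sum]
    refine Finset.sum_congr rfl fun x _ => ?_
    rw [gb_sum]
    refine Finset.sum_congr rfl fun y _ => ?_
    rw [← gb_smul, smul_mul_smul_comm]
    push_cast
    rfl
  have e3 : gb β K (A * (K * Aᴴ - Aᴴ * K) - (K * Aᴴ - Aᴴ * K) * A) =
      1 / 2 * (∑ x, ∑ y, if r x y then (u x - u y) ^ 2 *
          (2 * gb β K (z x * z y) + gb β K (b x * a y)) else 0) +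
          c * ∑ x, 2 * u x ^ 2 * gb β K (z x) := by
    rw [comm_K h r hr c (fun w => (u w : ℂ)) K A Aᴴ hK hA hB, gb_add, gb_smul, e1,
      show (1 / 2 : ℂ) = ((1 / 2 : ℝ) : ℂ) by push_cast; rfl, gb_smul, gb_sum]
    congr 2
    refine Finset.sum_congr rfl fun x _ => ?_
    rw [gb_sum]
    refine Finset.sum_congr rfl fun y _ => ?_
    split_ifs with hxy
    · have f1 : gb β K (a x * b y) = gb β K (b x * a y) := by
        rw [← gb_ct β hH, conjTranspose_mul, ← hb, hb y, conjTranspose_conjTranspose,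
          h.ab' y x (hr x y hxy).symm]
      rw [show ((u x : ℂ) - u y) = ((u x - u y : ℝ) : ℂ) by push_cast; rfl, gb_smul, gb_add, gb_sub,
        gb_smul, gb_smul, show (2 * ((u x - u y : ℝ) : ℂ)) = ((2 * (u x - u y) : ℝ) : ℂ) by
          push_cast; rfl, gb_smul, f1]
      ring
    · exact gb_zero β K
  rwa [e1, e2, e3] at k

end Vale.Agent.P361
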