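import Mathlib

open Matrix

namespace Vale.Agent.P361

/-- raising operator for spin `S = d/2`; basis vector `j` has third component `S - j` -/
noncomputable def Sp (d : ℕ) : Matrix (Fin (d + 1)) (Fin (d + 1)) ℂ := fun i j =>
  if (j : ℕ) = (i : ℕ) + 1 then ((Real.sqrt (((j : ℕ) : ℝ) * ((d : ℝ) + 1 - ((j : ℕ) : ℝ))) : ℝ) : ℂ)
  else 0

/-- the three spin matrices for spin `S = d/2` -/
noncomputable def spin (d : ℕ) : Fin 3 → Matrix (Fin (d + 1)) (Fin (d + 1)) ℂ :=
  ![(1 / 2 : ℂ) • (Sp d + (Sp d)ᴴ), (1 / (2 * Complex.I) : ℂ) • (Sp d - (Sp d)ᴴ),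
    diagonal fun j => (((d : ℝ) / 2 - ((j : ℕ) : ℝ) : ℝ) : ℂ)]

/-- the one site operator `T` acting at site `x` of the tensor product -/
def op {Λ ι : Type} [Fintype Λ] [DecidableEq Λ] [DecidableEq ι] (x : Λ) (T : Matrix ι ι ℂ) :
    Matrix (Λ → ι) (Λ → ι) ℂ := fun σ τ =>
  if ∀ y, y ≠ x → σ y = τ y then T (σ x) (τ x) else 0

/-- the box with coordinates from `-N` to `N` -/
abbrev Site (N : ℕ) : Type := Fin 3 → (Finset.Icc (-(N : ℤ)) (N : ℤ))

/-- nearest neighbours -/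
def adj {N : ℕ} (x y : Site N) : Prop := ∑ i, |(x i : ℤ) - (y i : ℤ)| = 1

instance {N : ℕ} (x y : Site N) : Decidable (adj x y) := by unfold adj; infer_instance

/-- Heisenberg ferromagnet with free boundary; ordered pairs, hence the factor one half -/
noncomputable def Ham (d N : ℕ) : Matrix (Site N → Fin (d + 1)) (Site N → Fin (d + 1)) ℂ :=
  -((1 / 2 : ℂ) • ∑ x : Site N, ∑ y : Site N,
    if adj x y then ∑ a : Fin 3, op x (spin d a) * op y (spin d a) else 0)

/-- total magnetization -/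
noncomputable def Mag (d N : ℕ) : Matrix (Site N → Fin (d + 1)) (Site N → Fin (d + 1)) ℂ :=
  ∑ x : Site N, op x (spin d 2)

/-- finite volume pressure -/
noncomputable def pN (d N : ℕ) (β h : ℝ) : ℝ :=
  Real.log (trace (NormedSpace.exp (-((β : ℂ) • (Ham d N - (h : ℂ) • Mag d N))))).re /
    (β * (Fintype.card (Site N) : ℝ))

end Vale.Agent.P361
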