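import Vale.Agent.P361.Bound

open Matrix

namespace Vale.Agent.P361

theorem z_diag {Λ : Type} [Fintype Λ] [DecidableEq Λ] (d : ℕ) (x : Λ) :
    op x (spin d 2) =
      diagonal fun σ : Λ → Fin (d + 1) => (((d : ℝ) / 2 - ((σ x : ℕ) : ℝ) : ℝ) : ℂ) :=
  op_diag x fun j : Fin (d + 1) => (((d : ℝ) / 2 - ((j : ℕ) : ℝ) : ℝ) : ℂ)

theorem gb_const {n : Type} [Fintype n] [DecidableEq n] (β : ℝ) (K : Matrix n n ℂ) (c : ℝ) :
    gb β K (diagonal fun _ => (c : ℂ)) = c * gb β K 1 := by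
  rw [← gb_smul, smul_one_eq_diagonal]

theorem ham_eq (d N : ℕ) : Ham d N = -((1 / 2 : ℂ) • ∑ x : Site N, ∑ y : Site N, if adj x y then
    bond (fun x => op x (Sp d)) (fun x => (op x (Sp d))ᴴ) (fun x => op x (spin d 2)) x y
      else 0) := by
  simp only [Ham, dot_eq, bond]

theorem bond_herm {Λ n : Type} [Fintype Λ] [DecidableEq Λ] [Fintype n] [DecidableEq n]
    {a b z : Λ → Matrix n n ℂ} (h : Rel a b z) (hb : ∀ x, b x = (a x)ᴴ) (hz : ∀ x, (z x)ᴴ = z x)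
    (r : Λ → Λ → Prop) [∀ x y, Decidable (r x y)] (hr : ∀ x y, r x y → x ≠ y) (c : ℝ) :
    (-((1 / 2 : ℂ) • ∑ x, ∑ y, if r x y then bond a b z x y else 0) -
      (c : ℂ) • ∑ x, z x).IsHermitian := by
  have ha : ∀ x, (b x)ᴴ = a x := fun x => by rw [hb, conjTranspose_conjTranspose]
  have e1 : (∑ x, ∑ y, if r x y then bond a b z x y else 0)ᴴ =
      ∑ x, ∑ y, if r x y then bond a b z x y else 0 := by
    rw [conjTranspose_sum]
    refine Finset.sum_congr rfl fun x _ => ?_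
    rw [conjTranspose_sum]
    refine Finset.sum_congr rfl fun y _ => ?_
    split_ifs with k
    · simp only [bond, conjTranspose_add, conjTranspose_smul, conjTranspose_mul, hz, ha, ← hb]
      rw [h.zz y x, h.ab' y x (hr x y k).symm, ← h.ab' x y (hr x y k), add_comm (b x * a y)]
      simp
    · simp
  have e2 : (∑ x, z x)ᴴ = ∑ x, z x := by
    rw [conjTranspose_sum]
    exact Finset.sum_congr rfl fun x _ => hz x
  rw [IsHermitian, conjTranspose_sub, conjTranspose_neg, conjTranspose_smul, conjTranspose_smul,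
    e1, e2]
  simp

theorem bond_comm {Λ R : Type} [Fintype Λ] [DecidableEq Λ] [Ring R] [Algebra ℂ R]
    {a b z : Λ → R} (h : Rel a b z)
    (r : Λ → Λ → Prop) [∀ x y, Decidable (r x y)] (hr : ∀ x y, r x y → x ≠ y) (c : ℂ) :
    (-((1 / 2 : ℂ) • ∑ x, ∑ y, if r x y then bond a b z x y else 0) - c • ∑ x, z x) *
      (c • ∑ x, z x) = (c • ∑ x, z x) *
      (-((1 / 2 : ℂ) • ∑ x, ∑ y, if r x y then bond a b z x y else 0) - c • ∑ x, z x) := by
  have e : (∑ x, ∑ y, if r x y then bond a b z x y else 0) * (∑ x, z x) =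
      (∑ x, z x) * ∑ x, ∑ y, if r x y then bond a b z x y else 0 := by
    generalize hM : ∑ x, z x = M
    rw [Finset.sum_mul, Finset.mul_sum]
    refine Finset.sum_congr rfl fun x _ => ?_
    rw [Finset.sum_mul, Finset.mul_sum]
    refine Finset.sum_congr rfl fun y _ => ?_
    split_ifs with k
    · rw [← hM]
      exact rel_bondM h (hr x y k)
    · simp
  generalize (∑ x, ∑ y, if r x y then bond a b z x y else 0) = H at e ⊢
  generalize ∑ x, z x = M at e ⊢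
  simp only [sub_mul, mul_sub, neg_mul, mul_neg, smul_mul_assoc, mul_smul_comm, e, smul_sub,
    smul_neg]
  rw [smul_comm c (1 / 2 : ℂ)]

section
variable {Λ : Type} [Fintype Λ] [DecidableEq Λ] (d : ℕ) (β : ℝ)
  {K : Matrix (Λ → Fin (d + 1)) (Λ → Fin (d + 1)) ℂ}

theorem z_herm (x : Λ) : (op x (spin d 2))ᴴ = op x (spin d 2) := by
  rw [z_diag]
  simp [diagonal_conjTranspose, Pi.star_def]

theorem mag_diag (h : ℝ) : (h : ℂ) • ∑ x : Λ, op x (spin d 2) = diagonal fun σ : Λ → Fin (d + 1) =>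
    ((h * ∑ x, ((d : ℝ) / 2 - ((σ x : ℕ) : ℝ)) : ℝ) : ℂ) := by
  ext σ τ
  simp only [z_diag, Matrix.smul_apply, Matrix.sum_apply, diagonal_apply]
  split_ifs <;> simp

theorem gb_z (hH : K.IsHermitian) (x : Λ) : gb β K (op x (spin d 2)) ≤ (d : ℝ) / 2 * gb β K 1 := by
  rw [z_diag, ← gb_const]
  exact gb_diag β hH _ _ fun σ => by simp

theorem gb_zz (hH : K.IsHermitian) (x y : Λ) :
    gb β K (op x (spin d 2) * op y (spin d 2)) ≤ ((d : ℝ) / 2) ^ 2 * gb β K 1 := by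
  have jd : ∀ j : Fin (d + 1), ((j : ℕ) : ℝ) ≤ d := fun j => by
    exact_mod_cast Nat.lt_succ_iff.1 j.2
  rw [z_diag, z_diag, diagonal_mul_diagonal, ← gb_const]
  have := gb_diag β hH (fun σ : Λ → Fin (d + 1) =>
    ((d : ℝ) / 2 - ((σ x : ℕ) : ℝ)) * ((d : ℝ) / 2 - ((σ y : ℕ) : ℝ)))
    (fun _ => ((d : ℝ) / 2) ^ 2) fun σ => by
      have a1 := jd (σ x)
      have a2 := jd (σ y)
      have a3 : (0 : ℝ) ≤ ((σ x : ℕ) : ℝ) := Nat.cast_nonneg _
      have a4 : (0 : ℝ) ≤ ((σ y : ℕ) : ℝ) := Nat.cast_nonneg _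
      nlinarith [mul_nonneg a3 (sub_nonneg.2 a2), mul_nonneg a4 (sub_nonneg.2 a1)]
  simpa only [Complex.ofReal_mul] using this

theorem gb_ba (hH : K.IsHermitian) (x y : Λ) : 2 * gb β K ((op x (Sp d))ᴴ * op y (Sp d)) ≤
    gb β K ((op x (Sp d))ᴴ * op x (Sp d)) + gb β K ((op y (Sp d))ᴴ * op y (Sp d)) := by
  have s := gb_sq β hH (op x (Sp d) - op y (Sp d))
  have f : gb β K ((op y (Sp d))ᴴ * op x (Sp d)) = gb β K ((op x (Sp d))ᴴ * op y (Sp d)) := by
    rw [← gb_ct β hH, conjTranspose_mul, conjTranspose_conjTranspose]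
  rw [conjTranspose_sub, sub_mul, mul_sub, mul_sub, gb_sub, gb_sub, gb_sub, f] at s
  linarith

theorem gb_ba' (hH : K.IsHermitian) (x : Λ) : gb β K ((op x (Sp d))ᴴ * op x (Sp d)) ≤
    2 * ((d : ℝ) / 2) * ((d : ℝ) / 2 * gb β K 1 - gb β K (op x (spin d 2))) := by
  rw [← op_ct, ← op_mul, sp_ba, op_diag, z_diag, ← gb_const, ← gb_sub, ← gb_smul,
    diagonal_sub, ← diagonal_smul]
  have := gb_diag β hH (fun σ : Λ → Fin (d + 1) =>
    ((σ x : ℕ) : ℝ) * ((d : ℝ) + 1 - ((σ x : ℕ) : ℝ)))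
    (fun σ => 2 * ((d : ℝ) / 2) * ((d : ℝ) / 2 - ((d : ℝ) / 2 - ((σ x : ℕ) : ℝ)))) fun σ => by
      rcases Nat.eq_zero_or_pos (σ x : ℕ) with e | e
      · simp [e]
      · have a3 : (1 : ℝ) ≤ ((σ x : ℕ) : ℝ) := by exact_mod_cast e
        nlinarith
  refine this.trans_eq ?_
  congr 2
  ext σ
  simp

end

theorem fin_bound (d N : ℕ) (β h : ℝ) (hβ : 0 < β) (hh : 0 ≤ h) : ∃ μ : ℝ,
    pN d N β h - pN d N β 0 ≤ h * μ ∧ ∀ (a : ℝ) (R : ℕ), 0 ≤ a →
      (d : ℝ) / 2 * (d - μ) ≤ a * μ →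
      μ * ∑ l ∈ Finset.range R, Real.exp (-((l + 1) * (β * h))) * gs N ((l + 1) * (β * a)) ^ 3 ≤
        (d : ℝ) / 2 * ((d : ℝ) / 2 - μ) := by
  have rel := rel_op (Λ := Site N) d
  obtain ⟨K, hK⟩ : ∃ K, K = Ham d N - (h : ℂ) • Mag d N := ⟨_, rfl⟩
  have hK' := hK
  rw [ham_eq, Mag] at hK'
  have hH : K.IsHermitian := by
    rw [hK']
    exact bond_herm rel (fun _ => rfl) (z_herm d) adj (fun _ _ => adj_ne) h
  obtain ⟨Z, hZ⟩ : ∃ Z, Z = gb β K 1 := ⟨_, rfl⟩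
  have Z0 : 0 < Z := by rw [hZ]; exact gb_pos β hH
  obtain ⟨V, hV⟩ : ∃ V : ℝ, V = Fintype.card (Site N) := ⟨_, rfl⟩
  have V0 : 0 < V := by rw [hV, card_site]; positivity
  obtain ⟨M, hM⟩ : ∃ M, M = ∑ x : Site N, gb β K (op x (spin d 2)) := ⟨_, rfl⟩
  refine ⟨M / (Z * V), ?_, fun a R ha hm => ?_⟩
  · have m2 := bond_comm rel adj (fun _ _ => adj_ne) (h : ℂ)
    rw [← hK', mag_diag] at m2
    have m3 := peierls β hH _ m2
    rw [← mag_diag, gb_smul, gb_sum, ← hM, ← hZ] at m3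
    have p1 : pN d N β h = Real.log Z / (β * V) := by
      rw [pN, hZ, gb, mul_one, hK, hV]
    have p2 : pN d N β 0 = Real.log (gb β (K + (h : ℂ) • ∑ x : Site N, op x (spin d 2)) 1) /
        (β * V) := by
      rw [pN, gb, mul_one, hK, hV, Mag, sub_add_cancel, Complex.ofReal_zero, zero_smul, sub_zero]
    rw [p1, p2, ← sub_div, div_le_iff₀ (by positivity)]
    refine m3.trans_eq ?_
    field_simp
  · have k := wave_bound (N := N) ((d : ℝ) / 2) Z β h a R (fun x => gb β K (op x (spin d 2)))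
      (fun x y => gb β K ((op x (Sp d))ᴴ * op y (Sp d)))
      (fun x y => gb β K (op x (spin d 2) * op y (spin d 2))) hβ.le hh ha (by positivity) Z0.le
      (fun x => by rw [hZ]; exact gb_z d β hH x) (fun x y => by rw [hZ]; exact gb_zz d β hH x y)
      (gb_ba d β hH) (fun x => by rw [hZ]; exact gb_ba' d β hH x)
      (by
        rw [← hV, ← hM]
        have := mul_le_mul_of_nonneg_right hm (show 0 ≤ Z * V by positivity)
        have e : M / (Z * V) * (Z * V) = M := by field_simp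
        have e2 : (d : ℝ) / 2 * (d - M / (Z * V)) * (Z * V) =
            d / 2 * (d * (Z * V) - M / (Z * V) * (Z * V)) := by ring
        rw [e2, mul_assoc a, e] at this
        linarith)
      (fun u t ht => gb_dbl rel (fun _ => rfl) adj (fun _ _ => adj_ne) h β K hH hK' u R t ht)
    rw [← hV, ← hM] at k
    generalize ∑ l ∈ Finset.range R, Real.exp (-((l + 1) * (β * h))) *
      gs N ((l + 1) * (β * a)) ^ 3 = G at k ⊢
    have e1 : M / (Z * V) * G = M * G / (Z * V) := by ring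
    have e2 : (d : ℝ) / 2 * (d / 2 - M / (Z * V)) = d / 2 * (d / 2 * Z * V - M) / (Z * V) := by
      field_simp
    rw [e1, e2]
    exact div_le_div_of_nonneg_right k (by positivity)

end Vale.Agent.P361
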