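import Vale.Agent.P361.FinV

namespace Vale.Agent.P361

open Real Filter Topology Finset

theorem rp32 {x : ℝ} (hx : 0 ≤ x) : x ^ (3 / 2 : ℝ) = √x ^ 3 := by
  rw [sqrt_eq_rpow, ← rpow_natCast, ← rpow_mul hx]
  norm_num

theorem choose_par {S c : ℝ} (hS : 0 < S) (hc : c < (∑' j : ℕ, 1 / ((j : ℝ) + 1) ^ (3 / 2 : ℝ)) /
      (8 * π ^ (3 / 2 : ℝ) * S ^ (3 / 2 : ℝ))) : ∃ (J : ℕ) (δ : ℝ), 0 < δ ∧ δ < 1 / 3 ∧
      c < (1 - δ) ^ 5 * (∑ j ∈ range J, 1 / √((j : ℝ) + 1) ^ 3) /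
        (8 * √π ^ 3 * √(S * (1 + 3 * δ)) ^ 3) := by
  have hsum : Summable fun j : ℕ => 1 / ((j : ℝ) + 1) ^ (3 / 2 : ℝ) := by
    have := (summable_nat_add_iff 1).2 (summable_one_div_nat_rpow.2 (by norm_num : (1 : ℝ) < 3 / 2))
    simpa using this
  obtain ⟨J, hJ⟩ := ((hsum.hasSum.tendsto_sum_nat.div_const
    (8 * π ^ (3 / 2 : ℝ) * S ^ (3 / 2 : ℝ))).eventually (lt_mem_nhds hc)).exists
  have e : ∑ j ∈ range J, 1 / ((j : ℝ) + 1) ^ (3 / 2 : ℝ) = ∑ j ∈ range J, 1 / √((j : ℝ) + 1) ^ 3 :=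
    sum_congr rfl fun j _ => by rw [rp32 (by positivity)]
  rw [e, rp32 pi_pos.le, rp32 hS.le] at hJ
  generalize hs : ∑ j ∈ range J, 1 / √((j : ℝ) + 1) ^ 3 = s at hJ
  have h0 : ContinuousAt (fun δ : ℝ => (1 - δ) ^ 5 * s / (8 * √π ^ 3 * √(S * (1 + 3 * δ)) ^ 3)) 0 := by
    refine ContinuousAt.div (by fun_prop) (by fun_prop) ?_
    have := pi_pos
    simp only [mul_zero, add_zero, mul_one]
    positivity
  have h1 : Tendsto (fun δ : ℝ => (1 - δ) ^ 5 * s / (8 * √π ^ 3 * √(S * (1 + 3 * δ)) ^ 3))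
      (𝓝[>] 0) (𝓝 (s / (8 * √π ^ 3 * √S ^ 3))) := by
    refine (h0.tendsto.mono_left nhdsWithin_le_nhds).trans (le_of_eq ?_)
    simp
  obtain ⟨δ, d1, d2, d3⟩ := ((h1.eventually (lt_mem_nhds hJ)).and
    (Ioo_mem_nhdsGT (show (0 : ℝ) < 1 / 3 by norm_num))).exists
  exact ⟨J, δ, d2, d3, hs ▸ d1⟩

theorem main_fin (d : ℕ) (hd : 1 ≤ d) (c : ℝ)
    (hc : c < (∑' j : ℕ, 1 / ((j : ℝ) + 1) ^ (3 / 2 : ℝ)) /
      (8 * π ^ (3 / 2 : ℝ) * ((d : ℝ) / 2) ^ (3 / 2 : ℝ))) :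
    ∀ᶠ β : ℝ in atTop, ∀ᶠ h : ℝ in 𝓝[>] 0, ∀ᶠ N : ℕ in atTop,
      pN d N β h - pN d N β 0 ≤ h * ((d : ℝ) / 2 - c / β ^ (3 / 2 : ℝ)) := by
  have d1 : (1 : ℝ) ≤ d := by exact_mod_cast hd
  obtain ⟨S, hS⟩ : ∃ S : ℝ, S = (d : ℝ) / 2 := ⟨_, rfl⟩
  have S0 : 0 < S := by rw [hS]; positivity
  rw [← hS] at hc ⊢
  obtain ⟨J, δ, δ0, δ1, hJ⟩ := choose_par S0 hc
  obtain ⟨a, ha⟩ : ∃ a, a = S * (1 + 3 * δ) := ⟨_, rfl⟩
  have a0 : 0 < a := by rw [ha]; positivity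
  rw [← ha] at hJ
  obtain ⟨T, T0, hT⟩ := gs_lower δ δ0
  filter_upwards [eventually_gt_atTop 0, (tendsto_id.atTop_mul_const a0).eventually_ge_atTop T,
    ((tendsto_rpow_atTop (by norm_num : (0 : ℝ) < 3 / 2)).atTop_mul_const
      (mul_pos S0 δ0)).eventually_ge_atTop c] with β β0 βT βc
  have hh : ∀ᶠ h : ℝ in 𝓝[>] 0, ∀ l ∈ range J, 1 - δ ≤ exp (-(((l : ℝ) + 1) * (β * h))) := by
    refine (eventually_all_finset _).2 fun l _ => ?_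
    have h0 : ContinuousAt (fun h : ℝ => exp (-(((l : ℝ) + 1) * (β * h)))) 0 := by fun_prop
    refine (h0.tendsto.mono_left nhdsWithin_le_nhds).eventually (le_mem_nhds ?_)
    simpa using δ0
  have hN : ∀ᶠ N : ℕ in atTop, ∀ l ∈ range J,
      (1 - δ) / (2 * √(π * (((l : ℝ) + 1) * (β * a)))) ≤ gs N (((l : ℝ) + 1) * (β * a)) := by
    refine (eventually_all_finset _).2 fun l _ => hT _ ?_
    have : 0 ≤ (l : ℝ) * (β * a) := by positivity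
    simp only [id] at βT
    linarith
  filter_upwards [hh, self_mem_nhdsWithin] with h h1 h2
  have h0 : 0 < h := h2
  filter_upwards [hN] with N h3
  obtain ⟨μ, m1, m2⟩ := fin_bound d N β h β0 h0.le
  refine m1.trans (mul_le_mul_of_nonneg_left ?_ h0.le)
  have B0 : 0 < β ^ (3 / 2 : ℝ) := by positivity
  rw [le_sub_comm, div_le_iff₀ B0]
  by_cases k : S * (1 - δ) ≤ μ
  · have dS : (d : ℝ) = 2 * S := by linarith
    have k1 := m2 a J a0.le (by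
      rw [← hS, dS, ha]
      have := mul_le_mul_of_nonneg_left k (show 0 ≤ S * (2 + 3 * δ) by positivity)
      have := mul_nonneg (mul_pos S0 S0).le (mul_nonneg δ0.le (show 0 ≤ 1 - 3 * δ by linarith))
      nlinarith)
    rw [← hS] at k1
    have δ2 : 0 ≤ 1 - δ := by linarith
    have k2 : (1 - δ) ^ 4 * (∑ j ∈ range J, 1 / √((j : ℝ) + 1) ^ 3) /
        (8 * √π ^ 3 * √a ^ 3) / √β ^ 3 ≤ ∑ l ∈ range J,
        exp (-(((l : ℝ) + 1) * (β * h))) * gs N (((l : ℝ) + 1) * (β * a)) ^ 3 := by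
      rw [mul_sum, sum_div, sum_div]
      refine sum_le_sum fun l hl => ?_
      refine le_trans (le_of_eq ?_) (mul_le_mul (h1 l hl) (pow_le_pow_left₀ (by positivity) (h3 l hl) 3)
        (by positivity) (exp_pos _).le)
      rw [sqrt_mul pi_pos.le, sqrt_mul (by positivity), sqrt_mul β0.le]
      have := pi_pos
      field_simp
      ring
    rw [rp32 β0.le]
    have s0 : 0 ≤ (1 - δ) ^ 4 * (∑ j ∈ range J, 1 / √((j : ℝ) + 1) ^ 3) /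
        (8 * √π ^ 3 * √a ^ 3) :=
      div_nonneg (mul_nonneg (pow_nonneg δ2 4) (sum_nonneg fun j _ => by positivity))
        (by positivity)
    have e : (1 - δ) ^ 5 * (∑ j ∈ range J, 1 / √((j : ℝ) + 1) ^ 3) / (8 * √π ^ 3 * √a ^ 3) =
        (1 - δ) * ((1 - δ) ^ 4 * (∑ j ∈ range J, 1 / √((j : ℝ) + 1) ^ 3) /
          (8 * √π ^ 3 * √a ^ 3)) := by ring
    rw [e] at hJ
    generalize (1 - δ) ^ 4 * (∑ j ∈ range J, 1 / √((j : ℝ) + 1) ^ 3) /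
      (8 * √π ^ 3 * √a ^ 3) = X at hJ k2 s0
    have b0 : 0 < √β ^ 3 := by positivity
    generalize √β ^ 3 = b at k2 b0 ⊢
    have k3 : S * (1 - δ) * (X / b) ≤ S * (S - μ) :=
      (mul_le_mul k k2 (by positivity) (le_trans (by positivity) k)).trans k1
    rw [mul_assoc] at k3
    have k4 := le_of_mul_le_mul_left k3 S0
    rw [← mul_div_assoc, div_le_iff₀ b0] at k4
    linarith
  · have := mul_le_mul_of_nonneg_left (show S * δ ≤ S - μ by linarith) B0.le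
    linarith

end Vale.Agent.P361
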