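import Vale.Agent.P361.Defs
import Vale.Agent.P361H.Gibbs

open Matrix

namespace Vale.Agent.P361

variable {n : Type} [Fintype n] [DecidableEq n]

/-- unnormalised Gibbs expectation -/
noncomputable def gb (β : ℝ) (K X : Matrix n n ℂ) : ℝ :=
  (trace (NormedSpace.exp (-((β : ℂ) • K)) * X)).re

/-- spectral form: use it for everything else -/
theorem exp_spec (β : ℝ) {K : Matrix n n ℂ} (hK : K.IsHermitian) :
    ∃ (U : Matrix n n ℂ) (E : n → ℝ), U * Uᴴ = 1 ∧ Uᴴ * U = 1 ∧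
      K = U * diagonal (fun i => (E i : ℂ)) * Uᴴ ∧
      NormedSpace.exp (-((β : ℂ) • K)) =
        U * diagonal (fun i => ((Real.exp (-(β * E i)) : ℝ) : ℂ)) * Uᴴ := by
  obtain ⟨U, E, h1, h2, h3, h4⟩ := P361H.diag_form hK β
  refine ⟨U, E, h2, h1, h3, ?_⟩
  simp only [neg_mul] at h4
  rw [← neg_smul, h4]

theorem gb_add (β : ℝ) (K X Y : Matrix n n ℂ) : gb β K (X + Y) = gb β K X + gb β K Y := by
  simp only [gb, mul_add, trace_add, Complex.add_re]

theorem gb_sub (β : ℝ) (K X Y : Matrix n n ℂ) : gb β K (X - Y) = gb β K X - gb β K Y := by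
  simp only [gb, mul_sub, trace_sub, Complex.sub_re]

theorem gb_smul (β : ℝ) (K X : Matrix n n ℂ) (c : ℝ) : gb β K ((c : ℂ) • X) = c * gb β K X := by
  simp only [gb, mul_smul_comm, trace_smul, smul_eq_mul, Complex.re_ofReal_mul]

theorem gb_sum {α : Type} (s : Finset α) (β : ℝ) (K : Matrix n n ℂ) (X : α → Matrix n n ℂ) :
    gb β K (∑ a ∈ s, X a) = ∑ a ∈ s, gb β K (X a) := by
  simp only [gb, Finset.mul_sum, trace_sum, Complex.re_sum]

theorem gb_ct (β : ℝ) {K : Matrix n n ℂ} (hK : K.IsHermitian) (X : Matrix n n ℂ) :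
    gb β K Xᴴ = gb β K X := by
  obtain ⟨U, E, h1, h2, h3, h4⟩ := exp_spec β hK
  have hH : (NormedSpace.exp (-((β : ℂ) • K)))ᴴ = NormedSpace.exp (-((β : ℂ) • K)) := by
    rw [h4]
    simp only [conjTranspose_mul, conjTranspose_conjTranspose, diagonal_conjTranspose, mul_assoc]
    congr 3
    ext i
    simp only [Pi.star_apply, RCLike.star_def, Complex.conj_ofReal]
  unfold gb
  conv_lhs => rw [← hH, ← conjTranspose_mul, trace_conjTranspose, trace_mul_comm]
  simp

theorem gb_sq (β : ℝ) {K : Matrix n n ℂ} (hK : K.IsHermitian) (X : Matrix n n ℂ) :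
    0 ≤ gb β K (Xᴴ * X) := by
  unfold gb
  rw [← neg_smul]
  exact P361H.gibbs_nonneg hK β X

theorem gb_diag (β : ℝ) {K : Matrix n n ℂ} (hK : K.IsHermitian) (f g : n → ℝ)
    (h : ∀ i, f i ≤ g i) :
    gb β K (diagonal fun i => (f i : ℂ)) ≤ gb β K (diagonal fun i => (g i : ℂ)) := by
  have key := gb_sq β hK (diagonal fun i => ((Real.sqrt (g i - f i) : ℝ) : ℂ))
  have e : (diagonal fun i => ((Real.sqrt (g i - f i) : ℝ) : ℂ))ᴴ *
      (diagonal fun i => ((Real.sqrt (g i - f i) : ℝ) : ℂ)) =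
      (diagonal fun i => (g i : ℂ)) - (diagonal fun i => (f i : ℂ)) := by
    rw [diagonal_conjTranspose, diagonal_mul_diagonal, diagonal_sub]
    congr 1
    ext i
    simp only [Pi.star_apply, RCLike.star_def, Complex.conj_ofReal]
    rw [← Complex.ofReal_mul, Real.mul_self_sqrt (sub_nonneg.2 (h i)), Complex.ofReal_sub]
  rw [e, gb_sub] at key
  linarith

theorem gb_pos [Nonempty n] (β : ℝ) {K : Matrix n n ℂ} (hK : K.IsHermitian) : 0 < gb β K 1 := by
  unfold gb
  rw [← neg_smul, mul_one]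
  exact P361H.gibbs_pos hK β

end Vale.Agent.P361
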