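import Vale.Agent.P361.Defs

open Matrix

namespace Vale.Agent.P361

variable {Λ ι : Type} [Fintype Λ] [DecidableEq Λ] [Fintype ι] [DecidableEq ι]

set_option linter.unusedSectionVars false

theorem op_add (x : Λ) (A B : Matrix ι ι ℂ) : op x (A + B) = op x A + op x B := by
  ext s t
  simp only [op, Matrix.add_apply]
  split_ifs <;> simp

theorem op_sub (x : Λ) (A B : Matrix ι ι ℂ) : op x (A - B) = op x A - op x B := by
  ext s t
  simp only [op, Matrix.sub_apply]
  split_ifs <;> simp

theorem op_smul (x : Λ) (c : ℂ) (A : Matrix ι ι ℂ) : op x (c • A) = c • op x A := by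
  ext s t
  simp only [op, Matrix.smul_apply]
  split_ifs <;> simp

theorem op_ct (x : Λ) (A : Matrix ι ι ℂ) : op x Aᴴ = (op x A)ᴴ := by
  ext s t
  simp only [op, conjTranspose_apply]
  by_cases h : ∀ y, y ≠ x → s y = t y
  · rw [if_pos h, if_pos fun y hy => (h y hy).symm]
  · rw [if_neg h, if_neg fun h' => h fun y hy => (h' y hy).symm, star_zero]

theorem op_diag (x : Λ) (f : ι → ℂ) : op x (diagonal f) = diagonal fun σ : Λ → ι => f (σ x) := by
  ext s t
  by_cases h : s = t
  · subst h
    simp [op]
  · rw [diagonal_apply_ne _ h, op]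
    split_ifs with h1
    · refine diagonal_apply_ne _ fun h2 => h (funext fun y => ?_)
      by_cases hy : y = x
      · rw [hy, h2]
      · exact h1 y hy
    · rfl

theorem Op.mul_apply (x : Λ) (A : Matrix ι ι ℂ) (M : Matrix (Λ → ι) (Λ → ι) ℂ) (s t : Λ → ι) :
    (op x A * M) s t = ∑ k, A (s x) k * M (Function.update s x k) t := by
  have hinj : Function.Injective fun k => Function.update s x k := fun a b h => by
    simpa using congrFun h x
  rw [Matrix.mul_apply, ← Finset.sum_subset (Finset.subset_univ
    (Finset.univ.image fun k => Function.update s x k)), Finset.sum_image fun a _ b _ h => hinj h]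
  · refine Finset.sum_congr rfl fun k _ => ?_
    rw [op, if_pos fun y hy => (Function.update_of_ne hy _ _).symm, Function.update_self]
  · intro r _ hr
    rw [op, if_neg, zero_mul]
    intro h
    refine hr (Finset.mem_image.2 ⟨r x, Finset.mem_univ _, funext fun y => ?_⟩)
    by_cases hy : y = x
    · rw [hy, Function.update_self]
    · rw [Function.update_of_ne hy, h y hy]

theorem op_mul (x : Λ) (A B : Matrix ι ι ℂ) : op x (A * B) = op x A * op x B := by
  ext s t
  rw [Op.mul_apply, op]
  split_ifs with h
  · rw [Matrix.mul_apply]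
    refine Finset.sum_congr rfl fun k _ => ?_
    rw [op, if_pos fun y hy => by rw [Function.update_of_ne hy, h y hy], Function.update_self]
  · refine (Finset.sum_eq_zero fun k _ => ?_).symm
    rw [op, if_neg, mul_zero]
    intro h'
    exact h fun y hy => by rw [← h' y hy, Function.update_of_ne hy]

theorem Op.two {x y : Λ} (h : x ≠ y) (A B : Matrix ι ι ℂ) (s t : Λ → ι) :
    (op x A * op y B) s t =
      if ∀ w, w ≠ x → w ≠ y → s w = t w then A (s x) (t x) * B (s y) (t y) else 0 := by
  rw [Op.mul_apply, Finset.sum_eq_single (t x), op, Function.update_of_ne h.symm]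
  · by_cases h1 : ∀ w, w ≠ x → w ≠ y → s w = t w
    · rw [if_pos h1, if_pos]
      intro w hw
      by_cases hx : w = x
      · rw [hx, Function.update_self]
      · rw [Function.update_of_ne hx, h1 w hx hw]
    · rw [if_neg h1, if_neg, mul_zero]
      intro h2
      exact h1 fun w hx hw => by rw [← h2 w hw, Function.update_of_ne hx]
  · intro k _ hk
    rw [op, if_neg, mul_zero]
    intro h2
    exact hk (by rw [← h2 x h, Function.update_self])
  · intro h2
    exact absurd (Finset.mem_univ _) h2

theorem op_comm {x y : Λ} (h : x ≠ y) (A B : Matrix ι ι ℂ) :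
    op x A * op y B = op y B * op x A := by
  ext s t
  rw [Op.two h, Op.two h.symm, mul_comm]
  by_cases h1 : ∀ w, w ≠ x → w ≠ y → s w = t w
  · rw [if_pos h1, if_pos fun w a b => h1 w b a]
  · rw [if_neg h1, if_neg fun h2 => h1 fun w a b => h2 w b a]

end Vale.Agent.P361
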