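import Vale.Agent.P361.Defs

namespace Vale.Agent.P361

open Real

/-- phase of the plane wave with momentum `2πk/(2N+1)` -/
noncomputable def ph {N : ℕ} (k x : Site N) : ℝ :=
  2 * π / (2 * N + 1) * ∑ i, ((k i : ℤ) : ℝ) * ((x i : ℤ) : ℝ)

/-- squared momentum -/
noncomputable def qq {N : ℕ} (k : Site N) : ℝ := ∑ i, (2 * π / (2 * N + 1) * ((k i : ℤ) : ℝ)) ^ 2

theorem wave_card_Icc (N : ℕ) : (Finset.Icc (-(N : ℤ)) (N : ℤ)).card = 2 * N + 1 := by
  rw [Int.card_Icc]; omega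

theorem card_site (N : ℕ) : (Fintype.card (Site N) : ℝ) = (2 * N + 1) ^ 3 := by
  rw [Fintype.card_fun, Fintype.card_coe, wave_card_Icc, Fintype.card_fin]
  push_cast; rfl

theorem adj_symm {N : ℕ} {x y : Site N} (h : adj x y) : adj y x := by
  unfold adj at h ⊢
  rw [← h]
  exact Finset.sum_congr rfl fun i _ => abs_sub_comm _ _

theorem adj_ne {N : ℕ} {x y : Site N} (h : adj x y) : x ≠ y := by
  rintro rfl
  simp [adj] at h

theorem wave_one (N : ℕ) (m : ℤ) (hm : m ≠ 0) (hm2 : |m| ≤ 2 * N) :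
    ∑ j : Finset.Icc (-(N : ℤ)) (N : ℤ),
      Complex.exp (((2 * π / (2 * N + 1) * (((j : ℤ) : ℝ) * (m : ℝ)) : ℝ) : ℂ) * Complex.I) = 0 := by
  have hL : ((2 * N + 1 : ℂ)) ≠ 0 := by exact_mod_cast (by omega : 2 * N + 1 ≠ 0)
  set w : ℂ := ((2 * π / (2 * N + 1) * (m : ℝ) : ℝ) : ℂ) * Complex.I with hw
  have h1 : Complex.exp w ≠ 1 := by
    intro h
    obtain ⟨n, hn⟩ := Complex.exp_eq_one_iff.mp h
    rw [hw] at hn
    have hpi : (π : ℂ) ≠ 0 := by exact_mod_cast pi_ne_zero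
    have h2 : (m : ℂ) = n * (2 * N + 1) := by
      push_cast at hn
      field_simp at hn
      linear_combination hn
    have h3 : m = n * (2 * N + 1) := by exact_mod_cast h2
    have hn0 : n ≠ 0 := by rintro rfl; exact hm (by simpa using h3)
    have h4 : 1 ≤ |n| := Int.one_le_abs hn0
    rw [h3, abs_mul, abs_of_nonneg (by positivity : (0 : ℤ) ≤ 2 * N + 1)] at hm2
    nlinarith
  have h2 : Complex.exp w ^ (2 * N + 1) = 1 := by
    rw [← Complex.exp_nat_mul, Complex.exp_eq_one_iff]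
    refine ⟨m, ?_⟩
    rw [hw]; push_cast; field_simp
  have h3 : ∑ r ∈ Finset.range (2 * N + 1), Complex.exp w ^ r = 0 := by
    rw [geom_sum_eq h1, h2, sub_self, zero_div]
  rw [Finset.sum_coe_sort (Finset.Icc (-(N : ℤ)) (N : ℤ)) (fun j : ℤ =>
    Complex.exp (((2 * π / (2 * N + 1) * ((j : ℝ) * (m : ℝ)) : ℝ) : ℂ) * Complex.I))]
  have h4 : ∑ j ∈ Finset.Icc (-(N : ℤ)) (N : ℤ),
      Complex.exp (((2 * π / (2 * N + 1) * ((j : ℝ) * (m : ℝ)) : ℝ) : ℂ) * Complex.I) =
      ∑ r ∈ Finset.range (2 * N + 1), Complex.exp (-(N : ℂ) * w) * Complex.exp w ^ r := by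
    symm
    refine Finset.sum_nbij' (fun r : ℕ => (r : ℤ) - N) (fun j : ℤ => (j + N).toNat) ?_ ?_ ?_ ?_ ?_
    · intro r hr
      simp only [Finset.mem_range, Finset.mem_Icc] at hr ⊢
      omega
    · intro j hj
      simp only [Finset.mem_range, Finset.mem_Icc] at hj ⊢
      omega
    · intro r _
      simp
    · intro j hj
      simp only [Finset.mem_Icc] at hj
      omega
    · intro r _
      rw [← Complex.exp_nat_mul, ← Complex.exp_add, hw]
      congr 1
      push_cast; ring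
  rw [h4, ← Finset.mul_sum, h3, mul_zero]

theorem wave_ph {N : ℕ} (k x y : Site N) : ph k x - ph k y =
    ∑ i, 2 * π / (2 * N + 1) * (((k i : ℤ) : ℝ) * (((x i : ℤ) - (y i : ℤ) : ℤ) : ℝ)) := by
  unfold ph
  rw [← mul_sub, ← Finset.sum_sub_distrib, Finset.mul_sum]
  refine Finset.sum_congr rfl fun i _ => ?_
  push_cast; ring

theorem wave_orth {N : ℕ} (x y : Site N) :
    ∑ k : Site N, cos (ph k x - ph k y) = if x = y then (Fintype.card (Site N) : ℝ) else 0 := by
  split_ifs with hxy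
  · subst hxy
    simp
  · obtain ⟨i, hi⟩ := Function.ne_iff.mp hxy
    have h1 : ∀ k : Site N, cos (ph k x - ph k y) = (∏ i, Complex.exp (((2 * π / (2 * N + 1) *
        (((k i : ℤ) : ℝ) * (((x i : ℤ) - (y i : ℤ) : ℤ) : ℝ)) : ℝ) : ℂ) * Complex.I)).re := by
      intro k
      rw [← Complex.exp_sum, ← Finset.sum_mul, ← Complex.ofReal_sum, ← wave_ph,
        Complex.exp_ofReal_mul_I_re]
    rw [Finset.sum_congr rfl fun k _ => h1 k, ← Complex.re_sum]
    have h2 := Finset.prod_univ_sum (fun _ : Fin 3 => (Finset.univ :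
      Finset (Finset.Icc (-(N : ℤ)) (N : ℤ)))) (fun i j => Complex.exp (((2 * π / (2 * N + 1) *
        (((j : ℤ) : ℝ) * (((x i : ℤ) - (y i : ℤ) : ℤ) : ℝ)) : ℝ) : ℂ) * Complex.I))
    rw [Fintype.piFinset_univ] at h2
    rw [← h2, Finset.prod_eq_zero (Finset.mem_univ i), Complex.zero_re]
    refine wave_one N _ (sub_ne_zero.mpr fun h => hi (Subtype.ext h)) ?_
    have hx := Finset.mem_Icc.mp (x i).2
    have hy := Finset.mem_Icc.mp (y i).2
    rw [abs_le]; constructor <;> omega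

theorem wave_struct {N : ℕ} {x y : Site N} (h : adj x y) {i : Fin 3} (hi : x i ≠ y i) :
    |(x i : ℤ) - (y i : ℤ)| = 1 ∧ ∀ j, j ≠ i → x j = y j := by
  unfold adj at h
  have h1 : 1 ≤ |(x i : ℤ) - (y i : ℤ)| :=
    Int.one_le_abs (sub_ne_zero.mpr fun h => hi (Subtype.ext h))
  rw [← Finset.add_sum_erase _ _ (Finset.mem_univ i)] at h
  have h2 : 0 ≤ ∑ j ∈ Finset.univ.erase i, |(x j : ℤ) - (y j : ℤ)| :=
    Finset.sum_nonneg fun j _ => abs_nonneg _
  refine ⟨by omega, fun j hj => ?_⟩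
  have h3 : ∑ j ∈ Finset.univ.erase i, |(x j : ℤ) - (y j : ℤ)| = 0 := by omega
  have h4 := (Finset.sum_eq_zero_iff_of_nonneg fun j _ => abs_nonneg _).mp h3 j
    (Finset.mem_erase.mpr ⟨hj, Finset.mem_univ _⟩)
  exact Subtype.ext (sub_eq_zero.mp (abs_eq_zero.mp h4))

theorem wave_cnt {N : ℕ} (x : Site N) (i : Fin 3) :
    (Finset.univ.filter fun y : Site N => adj x y ∧ x i ≠ y i).card ≤ 2 := by
  have : ({(x i : ℤ) + 1, (x i : ℤ) - 1} : Finset ℤ).card ≤ 2 := Finset.card_le_two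
  refine le_trans (Finset.card_le_card_of_injOn (fun y => (y i : ℤ)) ?_ ?_) this
  · intro y hy
    obtain ⟨h1, h2⟩ := (Finset.mem_filter.mp hy).2
    have := (wave_struct h1 h2).1
    simp only [Finset.coe_insert, Finset.coe_singleton, Set.mem_insert_iff, Set.mem_singleton_iff]
    rcases abs_eq (by norm_num : (0 : ℤ) ≤ 1) |>.mp this with h | h <;> omega
  · intro y hy z hz hyz
    obtain ⟨h1, h2⟩ := (Finset.mem_filter.mp hy).2
    obtain ⟨h3, h4⟩ := (Finset.mem_filter.mp hz).2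
    funext j
    by_cases hj : j = i
    · subst hj; exact Subtype.ext hyz
    · rw [← (wave_struct h1 h2).2 j hj, ← (wave_struct h3 h4).2 j hj]

theorem wave_adj {N : ℕ} (k x : Site N) :
    ∑ y : Site N, (if adj x y then 2 - 2 * cos (ph k x - ph k y) else 0) ≤ 2 * qq k := by
  have h1 : ∀ y : Site N, (if adj x y then 2 - 2 * cos (ph k x - ph k y) else 0) ≤
      ∑ i, if adj x y ∧ x i ≠ y i then (2 * π / (2 * N + 1) * ((k i : ℤ) : ℝ)) ^ 2 else 0 := by
    intro y
    split_ifs with h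
    · obtain ⟨i, hi⟩ := Function.ne_iff.mp (adj_ne h)
      obtain ⟨h2, h3⟩ := wave_struct h hi
      have h4 : ph k x - ph k y =
          2 * π / (2 * N + 1) * (((k i : ℤ) : ℝ) * (((x i : ℤ) - (y i : ℤ) : ℤ) : ℝ)) := by
        rw [wave_ph, Finset.sum_eq_single i]
        · intro j _ hj
          rw [h3 j hj]; simp
        · simp
      have h5 : ((((x i : ℤ) - (y i : ℤ) : ℤ) : ℝ)) ^ 2 = 1 := by
        have : ((x i : ℤ) - (y i : ℤ)) ^ 2 = 1 := by rw [← sq_abs, h2]; norm_num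
        exact_mod_cast this
      have h6 := Real.one_sub_sq_div_two_le_cos (x := ph k x - ph k y)
      have h7 : (ph k x - ph k y) ^ 2 = (2 * π / (2 * N + 1) * ((k i : ℤ) : ℝ)) ^ 2 := by
        rw [h4, ← mul_assoc, mul_pow, h5, mul_one]
      refine le_trans ?_ (Finset.single_le_sum (f := fun i => if adj x y ∧ x i ≠ y i then
        (2 * π / (2 * N + 1) * ((k i : ℤ) : ℝ)) ^ 2 else 0)
        (fun j _ => by split_ifs <;> positivity) (Finset.mem_univ i))
      simp only [if_pos (And.intro h hi)]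
      linarith
    · exact Finset.sum_nonneg fun j _ => by split_ifs <;> positivity
  refine le_trans (Finset.sum_le_sum fun y _ => h1 y) ?_
  rw [Finset.sum_comm, qq, Finset.mul_sum]
  refine Finset.sum_le_sum fun i _ => ?_
  rw [← Finset.sum_filter, Finset.sum_const, nsmul_eq_mul]
  refine mul_le_mul_of_nonneg_right ?_ (sq_nonneg _)
  exact_mod_cast wave_cnt x i

end Vale.Agent.P361
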